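/-
Row 210 (S0432), layer GC (Gamma calculus hub): auxiliary definitions.
Contract: `git show origin/helper928:docs/R210_wave2.md`, section GC.  Architect: helper277.
-/
import Claimed.Agent.R210.Defs2

set_option autoImplicit false

open Claims.C0366 Claims.C0366.WeakHessian
open Set Filter MeasureTheory
open scoped ENNReal NNReal Topology

namespace Claimed.Agent.R210.GC.Defs

open Claimed.Agent.R210.Defs Claimed.Agent.R210.Defs2

noncomputable section

variable {X : Type*} [MetricSpace X] [MeasurableSpace X] [BorelSpace X]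

/-- Essentially bounded on every ball. -/
def gc_LocBdd (m : Measure X) (f : X → ℝ) : Prop :=
  ∀ o : X, ∀ R : ℝ, ∃ B : ℝ, ∀ᵐ x ∂m, x ∈ Metric.ball o R → |f x| ≤ B

/-- Lipschitz on every ball. -/
def gc_LipLoc (f : X → ℝ) : Prop :=
  ∀ o : X, ∀ R : ℝ, ∃ L : ℝ≥0, LipschitzOnWith L f (Metric.ball o R)

/-- `f` vanishes outside a ball. -/
def gc_BddSupp (f : X → ℝ) : Prop :=
  ∃ o : X, ∃ R : ℝ, ∀ x, x ∉ Metric.ball o R → f x = 0

/-- `f` vanishes a.e. outside a ball. -/
def gc_BddSuppAE (m : Measure X) (f : X → ℝ) : Prop :=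
  ∃ o : X, ∃ R : ℝ, ∀ᵐ x ∂m, x ∉ Metric.ball o R → f x = 0

/-- Convergence in `L²(m)` along a filter (same formulation as in the frozen `cheegerEnergy`). -/
def gc_L2Lim {ι : Type*} (m : Measure X) (l : Filter ι) (fs : ι → X → ℝ) (f : X → ℝ) : Prop :=
  Tendsto (fun i => eLpNorm (fun x => fs i x - f x) 2 m) l (𝓝 0)

/-- Convergence in `L¹(m)` along a filter. -/
def gc_L1Lim {ι : Type*} (m : Measure X) (l : Filter ι) (fs : ι → X → ℝ) (f : X → ℝ) : Prop :=
  Tendsto (fun i => eLpNorm (fun x => fs i x - f x) 1 m) l (𝓝 0)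

/-- Convergence in `W^{1,2}(m)` along a filter. -/
def gc_W12Lim {ι : Type*} (m : Measure X) (l : Filter ι) (fs : ι → X → ℝ) (f : X → ℝ) : Prop :=
  gc_L2Lim m l fs f ∧ Tendsto (fun i => energy m (fun x => fs i x - f x)) l (𝓝 0)

/-- The class of `f` in `L²(m)` (`0` if `f ∉ L²`). -/
def gc_lp (m : Measure X) (f : X → ℝ) : Lp ℝ 2 m :=
  haveI := Classical.propDecidable (MemLp f 2 m)
  if h : MemLp f 2 m then h.toLp f else 0

end

end Claimed.Agent.R210.GC.Defs
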