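/-
Row 210 (S0432), layer GC, interface part A: first order calculus for the frozen `weakGradient`,
`LocalSobolev`, `Sobolev`.  Only needs `FiniteOnBoundedSets m` (no curvature, no quadraticity).
Architect: helper277.  Consumers: import `Claimed.Agent.R210.GC.Ifc`.
-/
import Claimed.Agent.R210.GC.Defs
import Claimed.Agent.R210.TP.Ifc

set_option autoImplicit false

open Claims.C0366 Claims.C0366.WeakHessian
open Set Filter MeasureTheory
open scoped ENNReal NNReal Topology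

namespace Claimed.Agent.R210.GC.WG

open Claimed.Agent.R210.Defs Claimed.Agent.R210.Defs2 Claimed.Agent.R210.GC.Defs
open Claimed.Agent.R210.TP.Defs Claimed.Agent.R210.TP.Ifc

variable {X : Type*} [MetricSpace X] [MeasurableSpace X] [BorelSpace X]
  [CompleteSpace X] [TopologicalSpace.SeparableSpace X] {m : Measure X}

/-! ### A0. classes of functions -/

theorem gc_locBdd_of_bounded {f : X → ℝ} (hf : BoundedFunction f) : gc_LocBdd m f := by
  obtain ⟨B, hB⟩ := hf
  exact fun o R => ⟨B, Eventually.of_forall fun x _ => hB x⟩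

theorem gc_locBdd_of_aebdd {f : X → ℝ} {B : ℝ} (hf : AEBdd m f B) : gc_LocBdd m f := by
  intro o R
  refine ⟨B, ?_⟩
  filter_upwards [hf] with x hx _
  exact hx

theorem gc_locBdd_of_lipLoc {f : X → ℝ} (hf : gc_LipLoc f) : gc_LocBdd m f := by
  exact tp_locBdd_of_lipOnBdd m hf

theorem gc_locBdd_add {f g : X → ℝ} (hf : gc_LocBdd m f) (hg : gc_LocBdd m g) :
    gc_LocBdd m (fun x => f x + g x) := by
  intro o R
  obtain ⟨B1, h1⟩ := hf o R
  obtain ⟨B2, h2⟩ := hg o R
  refine ⟨B1 + B2, ?_⟩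
  filter_upwards [h1, h2] with x e1 e2 hx
  exact (abs_add_le _ _).trans (add_le_add (e1 hx) (e2 hx))

theorem gc_locBdd_sub {f g : X → ℝ} (hf : gc_LocBdd m f) (hg : gc_LocBdd m g) :
    gc_LocBdd m (fun x => f x - g x) := by
  intro o R
  obtain ⟨B1, h1⟩ := hf o R
  obtain ⟨B2, h2⟩ := hg o R
  refine ⟨B1 + B2, ?_⟩
  filter_upwards [h1, h2] with x e1 e2 hx
  exact (abs_sub _ _).trans (add_le_add (e1 hx) (e2 hx))

theorem gc_locBdd_mul {f g : X → ℝ} (hf : gc_LocBdd m f) (hg : gc_LocBdd m g) :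
    gc_LocBdd m (fun x => f x * g x) := by
  intro o R
  obtain ⟨B1, h1⟩ := hf o R
  obtain ⟨B2, h2⟩ := hg o R
  refine ⟨B1 * B2, ?_⟩
  filter_upwards [h1, h2] with x e1 e2 hx
  rw [abs_mul]
  exact mul_le_mul (e1 hx) (e2 hx) (abs_nonneg _) ((abs_nonneg _).trans (e1 hx))

theorem gc_locBdd_comp {f : X → ℝ} {φ : ℝ → ℝ} (hφ : Continuous φ) (hf : gc_LocBdd m f) :
    gc_LocBdd m (fun x => φ (f x)) := by
  intro o R
  obtain ⟨B, hB⟩ := hf o R
  obtain ⟨C, hC⟩ := (isCompact_Icc (a := -B) (b := B)).exists_bound_of_continuousOn hφ.continuousOn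
  refine ⟨C, ?_⟩
  filter_upwards [hB] with x e hx
  exact hC (f x) (abs_le.mp (e hx))

theorem gc_lipLoc_of_lip {f : X → ℝ} (hf : GloballyLipschitz f) : gc_LipLoc f := by
  obtain ⟨L, hL⟩ := hf
  exact fun o R => ⟨L, hL.lipschitzOnWith⟩

theorem gc_lipLoc_add {f g : X → ℝ} (hf : gc_LipLoc f) (hg : gc_LipLoc g) :
    gc_LipLoc (fun x => f x + g x) := by
  intro o R
  obtain ⟨L1, h1⟩ := hf o R
  obtain ⟨L2, h2⟩ := hg o R
  exact ⟨L1 + L2, h1.add h2⟩

theorem gc_lipLoc_sub {f g : X → ℝ} (hf : gc_LipLoc f) (hg : gc_LipLoc g) :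
    gc_LipLoc (fun x => f x - g x) := by
  intro o R
  obtain ⟨L1, h1⟩ := hf o R
  obtain ⟨L2, h2⟩ := hg o R
  exact ⟨L1 + L2, h1.sub h2⟩

theorem gc_lipLoc_const_mul {f : X → ℝ} (c : ℝ) (hf : gc_LipLoc f) :
    gc_LipLoc (fun x => c * f x) := by
  intro o R
  obtain ⟨L1, h1⟩ := hf o R
  refine ⟨Real.toNNReal |c| * L1, LipschitzOnWith.of_dist_le_mul (fun x hx y hy => ?_)⟩
  have h := h1.dist_le_mul x hx y hy
  rw [Real.dist_eq] at h ⊢
  rw [← mul_sub, abs_mul, NNReal.coe_mul, Real.coe_toNNReal _ (abs_nonneg c), mul_assoc]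
  exact mul_le_mul_of_nonneg_left h (abs_nonneg c)

/-- a function which is Lipschitz on a ball is bounded on it -/
theorem gc_aux_bdd_on_ball {f : X → ℝ} {L : ℝ≥0} {o : X} {R : ℝ}
    (h : LipschitzOnWith L f (Metric.ball o R)) : ∃ B : ℝ, 0 ≤ B ∧ ∀ x ∈ Metric.ball o R, |f x| ≤ B := by
  refine ⟨|f o| + L * |R|, by positivity, fun x hx => ?_⟩
  have hxR : dist x o < R := Metric.mem_ball.mp hx
  have hR : 0 < R := lt_of_le_of_lt dist_nonneg hxR
  have ho : o ∈ Metric.ball o R := Metric.mem_ball_self hR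
  have h1 := h.dist_le_mul x hx o ho
  rw [Real.dist_eq] at h1
  have h2 : |f x| ≤ |f o| + |f x - f o| := by
    have := abs_add_le (f o) (f x - f o)
    simpa using this
  have h3 : (L : ℝ) * dist x o ≤ L * |R| :=
    mul_le_mul_of_nonneg_left (le_trans hxR.le (le_abs_self R)) L.2
  linarith

theorem gc_lipLoc_mul {f g : X → ℝ} (hf : gc_LipLoc f) (hg : gc_LipLoc g) :
    gc_LipLoc (fun x => f x * g x) := by
  intro o R
  obtain ⟨L1, h1⟩ := hf o R
  obtain ⟨L2, h2⟩ := hg o R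
  obtain ⟨B1, hB1, b1⟩ := gc_aux_bdd_on_ball h1
  obtain ⟨B2, hB2, b2⟩ := gc_aux_bdd_on_ball h2
  refine ⟨Real.toNNReal B1 * L2 + Real.toNNReal B2 * L1,
    LipschitzOnWith.of_dist_le_mul (fun x hx y hy => ?_)⟩
  have e1 := h1.dist_le_mul x hx y hy
  have e2 := h2.dist_le_mul x hx y hy
  rw [Real.dist_eq] at e1 e2 ⊢
  rw [NNReal.coe_add, NNReal.coe_mul, NNReal.coe_mul, Real.coe_toNNReal _ hB1, Real.coe_toNNReal _ hB2]
  have hd : 0 ≤ dist x y := dist_nonneg
  have key : f x * g x - f y * g y = f x * (g x - g y) + g y * (f x - f y) := by ring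
  rw [key]
  calc |f x * (g x - g y) + g y * (f x - f y)|
      ≤ |f x * (g x - g y)| + |g y * (f x - f y)| := abs_add_le _ _
    _ = |f x| * |g x - g y| + |g y| * |f x - f y| := by rw [abs_mul, abs_mul]
    _ ≤ B1 * (L2 * dist x y) + B2 * (L1 * dist x y) := by
        gcongr
        · exact b1 x hx
        · exact b2 y hy
    _ = (B1 * L2 + B2 * L1) * dist x y := by ring

/-- composition with a `C¹` function -/
theorem gc_lipLoc_comp {f : X → ℝ} {φ : ℝ → ℝ} (hφ : ContDiff ℝ 1 φ) (hf : gc_LipLoc f) :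
    gc_LipLoc (fun x => φ (f x)) := by
  intro o R
  obtain ⟨L1, h1⟩ := hf o R
  obtain ⟨B1, hB1, b1⟩ := gc_aux_bdd_on_ball h1
  have hd : Continuous (deriv φ) := hφ.continuous_deriv le_rfl
  obtain ⟨C, hC⟩ := (isCompact_Icc (a := -B1) (b := B1)).exists_bound_of_continuousOn hd.continuousOn
  have hC0 : 0 ≤ C := le_trans (norm_nonneg _) (hC 0 ⟨by linarith, hB1⟩)
  have hL : LipschitzOnWith (Real.toNNReal C) φ (Set.Icc (-B1) B1) := by
    refine Convex.lipschitzOnWith_of_nnnorm_deriv_le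
      (fun x _ => (hφ.differentiable one_ne_zero).differentiableAt) (fun x hx => ?_) (convex_Icc _ _)
    rw [← NNReal.coe_le_coe, Real.coe_toNNReal _ hC0]
    exact hC x hx
  refine ⟨Real.toNNReal C * L1, hL.comp h1 (fun x hx => ?_)⟩
  exact abs_le.mp (b1 x hx)

theorem gc_lipLoc_comp_lip {f : X → ℝ} {φ : ℝ → ℝ} {L : ℝ≥0} (hφ : LipschitzWith L φ)
    (hf : gc_LipLoc f) : gc_LipLoc (fun x => φ (f x)) := by
  intro o R
  obtain ⟨L1, h1⟩ := hf o R
  exact ⟨L * L1, hφ.comp_lipschitzOnWith h1⟩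

theorem gc_lipLoc_max {f g : X → ℝ} (hf : gc_LipLoc f) (hg : gc_LipLoc g) :
    gc_LipLoc (fun x => max (f x) (g x)) := by
  intro o R
  obtain ⟨L1, h1⟩ := hf o R
  obtain ⟨L2, h2⟩ := hg o R
  rw [lipschitzOnWith_iff_restrict] at h1 h2
  refine ⟨max L1 L2, ?_⟩
  rw [lipschitzOnWith_iff_restrict]
  exact h1.max h2

theorem gc_lipLoc_min {f g : X → ℝ} (hf : gc_LipLoc f) (hg : gc_LipLoc g) :
    gc_LipLoc (fun x => min (f x) (g x)) := by
  intro o R
  obtain ⟨L1, h1⟩ := hf o R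
  obtain ⟨L2, h2⟩ := hg o R
  rw [lipschitzOnWith_iff_restrict] at h1 h2
  refine ⟨max L1 L2, ?_⟩
  rw [lipschitzOnWith_iff_restrict]
  exact h1.min h2

theorem gc_lipLoc_dist (x : X) : gc_LipLoc (fun z => dist z x) := by
  intro o R
  exact ⟨1, (LipschitzWith.dist_left x).lipschitzOnWith⟩

theorem gc_lipLoc_wfun (x : X) : gc_LipLoc (wfun x) := by
  have h := gc_lipLoc_const_mul (1 / 2 : ℝ) (gc_lipLoc_mul (gc_lipLoc_dist x) (gc_lipLoc_dist x))
  have e : wfun x = fun z => (1 / 2 : ℝ) * (dist z x * dist z x) := by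
    funext z
    unfold wfun
    ring
  rw [e]
  exact h

theorem gc_lipLoc_continuous {f : X → ℝ} (hf : gc_LipLoc f) : Continuous f := by
  rw [continuous_iff_continuousAt]
  intro x
  obtain ⟨L, hL⟩ := hf x 1
  exact hL.continuousOn.continuousAt (Metric.ball_mem_nhds x one_pos)

/-- Lipschitz on balls + vanishing outside a ball ⟹ globally Lipschitz. -/
theorem gc_lip_of_lipLoc_bddSupp {f : X → ℝ} (hf : gc_LipLoc f) (hs : gc_BddSupp f) :
    GloballyLipschitz f := by
  obtain ⟨o, R, hR⟩ := hs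
  obtain ⟨L, hL⟩ := hf o (R + 1)
  set B : ℝ := |f o| + L * |R| with hB
  have hB0 : 0 ≤ B := by positivity
  -- bound of `f` on `ball o R`
  have hbd : ∀ y, y ∈ Metric.ball o R → |f y| ≤ B := by
    intro y hy
    have hy' : dist y o < R := Metric.mem_ball.1 hy
    have hRpos : 0 < R := lt_of_le_of_lt dist_nonneg hy'
    have h1 : y ∈ Metric.ball o (R + 1) := Metric.mem_ball.2 (by linarith)
    have h2 : o ∈ Metric.ball o (R + 1) := Metric.mem_ball_self (by linarith)
    have h3 := hL.dist_le_mul y h1 o h2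
    rw [Real.dist_eq] at h3
    have h4 : |f y| ≤ |f o| + |f y - f o| := by
      have := abs_add_le (f o) (f y - f o)
      simpa using this
    have h5 : (L : ℝ) * dist y o ≤ L * |R| :=
      mul_le_mul_of_nonneg_left (hy'.le.trans (le_abs_self R)) L.coe_nonneg
    linarith
  -- one point far away
  have hfar : ∀ x y, x ∉ Metric.ball o (R + 1) → |f x - f y| ≤ B * dist x y := by
    intro x y hx
    have hx' : R + 1 ≤ dist x o := by
      rw [Metric.mem_ball, not_lt] at hx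
      exact hx
    have hx0 : f x = 0 := hR x (by
      rw [Metric.mem_ball, not_lt]
      linarith)
    by_cases hy : y ∈ Metric.ball o R
    · have hy' : dist y o < R := Metric.mem_ball.1 hy
      have h1 : 1 ≤ dist x y := by
        have := dist_triangle x y o
        linarith
      rw [hx0, zero_sub, abs_neg]
      calc |f y| ≤ B := hbd y hy
        _ = B * 1 := (mul_one B).symm
        _ ≤ B * dist x y := mul_le_mul_of_nonneg_left h1 hB0
    · rw [hx0, hR y hy, sub_zero, abs_zero]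
      positivity
  refine ⟨L + Real.toNNReal B, LipschitzWith.of_dist_le_mul fun x y => ?_⟩
  have hC : ((L + Real.toNNReal B : ℝ≥0) : ℝ) = L + B := by
    rw [NNReal.coe_add, Real.coe_toNNReal B hB0]
  rw [hC, Real.dist_eq]
  have hd : 0 ≤ dist x y := dist_nonneg
  have hLd : 0 ≤ (L : ℝ) * dist x y := mul_nonneg L.coe_nonneg hd
  have hBd : 0 ≤ B * dist x y := mul_nonneg hB0 hd
  by_cases hx : x ∈ Metric.ball o (R + 1)
  · by_cases hy : y ∈ Metric.ball o (R + 1)
    · have h3 := hL.dist_le_mul x hx y hy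
      rw [Real.dist_eq] at h3
      nlinarith
    · have h3 := hfar y x hy
      rw [abs_sub_comm, dist_comm] at h3
      nlinarith
  · have h3 := hfar x y hx
    nlinarith

theorem gc_lipC_of_lipLoc_bddSupp [ProperSpace X] {f : X → ℝ} (hf : gc_LipLoc f)
    (hs : gc_BddSupp f) : LipC f := by
  refine ⟨gc_lip_of_lipLoc_bddSupp hf hs, ?_⟩
  obtain ⟨o, R, hR⟩ := hs
  refine HasCompactSupport.intro (isCompact_closedBall o R) fun x hx => hR x fun hx' => ?_
  exact hx (Metric.ball_subset_closedBall hx')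

/-- (aux) `gc_bddSupp_of_lipC` on a nonempty space (on the empty type `gc_BddSupp` is false). -/
theorem gc_aux_bddSupp_of_lipC [Nonempty X] {f : X → ℝ} (hf : LipC f) : gc_BddSupp f := by
  obtain ⟨o⟩ := (inferInstance : Nonempty X)
  obtain ⟨R, hR⟩ := hf.2.isCompact.isBounded.subset_ball o
  refine ⟨o, R, fun x hx => ?_⟩
  by_contra hne
  exact hx (hR (subset_tsupport f (Function.mem_support.2 hne)))

theorem gc_bddSupp_of_lipC [Nonempty X] {f : X → ℝ} (hf : LipC f) : gc_BddSupp f :=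
  gc_aux_bddSupp_of_lipC hf

theorem gc_lipB_of_lipC {f : X → ℝ} (hf : LipC f) : LipB f := by
  refine ⟨hf.1, ?_⟩
  obtain ⟨L, hL⟩ := hf.1
  obtain ⟨C, hC⟩ := hf.2.exists_bound_of_continuous hL.continuous
  exact ⟨C, fun x => by simpa using hC x⟩

/-! ### A1. basic facts on `weakGradient` (true in the junk branch as well) -/

theorem gc_wg_nonneg (f : X → ℝ) : ∀ᵐ x ∂m, 0 ≤ weakGradient m f x :=
  tp_weakGradient_nonneg m f

theorem gc_wg_locallyL2 (f : X → ℝ) : LocallyL2 m (weakGradient m f) :=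
  tp_weakGradient_locallyL2 m f

theorem gc_wg_aesm (f : X → ℝ) : AEStronglyMeasurable (weakGradient m f) m :=
  tp_aestronglyMeasurable (tp_weakGradient_locallyL2 m f)

theorem gc_aesm_of_locallyL2 {f : X → ℝ} (hf : LocallyL2 m f) : AEStronglyMeasurable f m :=
  tp_aestronglyMeasurable hf

theorem gc_wug_congr {f g D : X → ℝ} (h : f =ᵐ[m] g) :
    IsLocalWeakUpperGradient m f D ↔ IsLocalWeakUpperGradient m g D :=
  ⟨tp_wug_congr h (EventuallyEq.refl _ D), tp_wug_congr h.symm (EventuallyEq.refl _ D)⟩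

/-- equality of FUNCTIONS -/
theorem gc_wg_congr {f g : X → ℝ} (h : f =ᵐ[m] g) : weakGradient m f = weakGradient m g :=
  tp_weakGradient_congr h

theorem gc_ls_congr {f g : X → ℝ} (h : f =ᵐ[m] g) (hf : LocalSobolev m f) : LocalSobolev m g :=
  tp_localSobolev_congr h hf

theorem gc_sob_congr {f g : X → ℝ} (h : f =ᵐ[m] g) (hf : Sobolev m f) : Sobolev m g :=
  tp_sobolev_congr h hf

theorem gc_wg_isMin {f : X → ℝ} (hf : LocalSobolev m f) :
    IsMinimalLocalWeakUpperGradient m f (weakGradient m f) :=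
  tp_weakGradient_minimal hf

theorem gc_ls_of_wug (hfin : FiniteOnBoundedSets m) {f D : X → ℝ} (hf : LocallyL2 m f)
    (hD : IsLocalWeakUpperGradient m f D) : LocalSobolev m f :=
  tp_localSobolev_of_wug hfin hf hD

theorem gc_wg_le_of_wug (hfin : FiniteOnBoundedSets m) {f D : X → ℝ} (hf : LocallyL2 m f)
    (hD : IsLocalWeakUpperGradient m f D) : ∀ᵐ x ∂m, weakGradient m f x ≤ D x :=
  tp_weakGradient_le hD

/-- anything locally `L²` above the minimal w.u.g. is a w.u.g. -/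
theorem gc_wug_of_le {f D : X → ℝ} (hf : LocalSobolev m f) (hD : LocallyL2 m D)
    (h : ∀ᵐ x ∂m, weakGradient m f x ≤ D x) : IsLocalWeakUpperGradient m f D :=
  tp_wug_mono (tp_weakGradient_wug hf) hD h

theorem gc_ls_of_sob {f : X → ℝ} (hf : Sobolev m f) : LocalSobolev m f := hf.2.1

/-! ### A2. vector space structure -/

theorem gc_ls_const (hfin : FiniteOnBoundedSets m) (c : ℝ) : LocalSobolev m (fun _ : X => c) := by
  exact tp_localSobolev_const hfin c

theorem gc_wg_const (hfin : FiniteOnBoundedSets m) (c : ℝ) :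
    ∀ᵐ x ∂m, weakGradient m (fun _ : X => c) x = 0 := by
  filter_upwards [tp_weakGradient_const m c] with x hx
  simpa using hx

theorem gc_ls_add (hfin : FiniteOnBoundedSets m) {f g : X → ℝ} (hf : LocalSobolev m f)
    (hg : LocalSobolev m g) : LocalSobolev m (fun x => f x + g x) := by
  exact tp_localSobolev_add hfin hf hg

theorem gc_ls_sub (hfin : FiniteOnBoundedSets m) {f g : X → ℝ} (hf : LocalSobolev m f)
    (hg : LocalSobolev m g) : LocalSobolev m (fun x => f x - g x) := by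
  exact tp_localSobolev_sub hfin hf hg

theorem gc_ls_neg (hfin : FiniteOnBoundedSets m) {f : X → ℝ} (hf : LocalSobolev m f) :
    LocalSobolev m (fun x => - f x) := by
  exact tp_localSobolev_neg hfin hf

theorem gc_ls_const_mul (hfin : FiniteOnBoundedSets m) (c : ℝ) {f : X → ℝ}
    (hf : LocalSobolev m f) : LocalSobolev m (fun x => c * f x) := by
  exact tp_localSobolev_const_mul hfin c hf

theorem gc_ls_add_const (hfin : FiniteOnBoundedSets m) (c : ℝ) {f : X → ℝ}
    (hf : LocalSobolev m f) : LocalSobolev m (fun x => f x + c) := by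
  exact tp_localSobolev_add_const hfin hf c

theorem gc_wg_add_le (hfin : FiniteOnBoundedSets m) {f g : X → ℝ} (hf : LocalSobolev m f)
    (hg : LocalSobolev m g) :
    ∀ᵐ x ∂m, weakGradient m (fun x => f x + g x) x ≤ weakGradient m f x + weakGradient m g x := by
  exact tp_weakGradient_add_le hf hg

theorem gc_wg_sub_le (hfin : FiniteOnBoundedSets m) {f g : X → ℝ} (hf : LocalSobolev m f)
    (hg : LocalSobolev m g) :
    ∀ᵐ x ∂m, weakGradient m (fun x => f x - g x) x ≤ weakGradient m f x + weakGradient m g x := by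
  exact tp_weakGradient_sub_le hfin hf hg

/-- reverse triangle inequality -/
theorem gc_wg_abs_sub_le (hfin : FiniteOnBoundedSets m) {f g : X → ℝ} (hf : LocalSobolev m f)
    (hg : LocalSobolev m g) :
    ∀ᵐ x ∂m, |weakGradient m f x - weakGradient m g x| ≤ weakGradient m (fun x => f x - g x) x := by
  exact tp_abs_weakGradient_sub_le hfin hf hg

theorem gc_wg_neg (hfin : FiniteOnBoundedSets m) {f : X → ℝ} (hf : LocalSobolev m f) :
    ∀ᵐ x ∂m, weakGradient m (fun x => - f x) x = weakGradient m f x := by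
  rw [tp_weakGradient_neg m f]
  exact Eventually.of_forall fun _ => rfl

theorem gc_wg_const_mul (hfin : FiniteOnBoundedSets m) (c : ℝ) {f : X → ℝ}
    (hf : LocalSobolev m f) :
    ∀ᵐ x ∂m, weakGradient m (fun x => c * f x) x = |c| * weakGradient m f x := by
  exact tp_weakGradient_const_mul m c f

theorem gc_wg_add_const (hfin : FiniteOnBoundedSets m) (c : ℝ) {f : X → ℝ}
    (hf : LocalSobolev m f) :
    ∀ᵐ x ∂m, weakGradient m (fun x => f x + c) x = weakGradient m f x := by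
  rw [tp_weakGradient_add_const m f c]
  exact Eventually.of_forall fun _ => rfl

/-! ### A3. locality -/

theorem gc_wg_eq_on (hfin : FiniteOnBoundedSets m) {f g : X → ℝ} (hf : LocalSobolev m f)
    (hg : LocalSobolev m g) : ∀ᵐ x ∂m, f x = g x → weakGradient m f x = weakGradient m g x :=
  tp_weakGradient_locality hf hg

theorem gc_wg_zero_on_level (hfin : FiniteOnBoundedSets m) {f : X → ℝ} (hf : LocalSobolev m f)
    (c : ℝ) : ∀ᵐ x ∂m, f x = c → weakGradient m f x = 0 := by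
  filter_upwards [tp_weakGradient_null hf (N := {c}) (by simp)] with x hx hc
  exact hx (by simp [hc])

theorem gc_wg_zero_on_null (hfin : FiniteOnBoundedSets m) {f : X → ℝ} (hf : LocalSobolev m f)
    {Z : Set ℝ} (hZ : volume Z = 0) : ∀ᵐ x ∂m, f x ∈ Z → weakGradient m f x = 0 :=
  tp_weakGradient_null hf hZ

/-- `LocalSobolev` is a local property. -/
theorem gc_ls_of_local (hfin : FiniteOnBoundedSets m) {f : X → ℝ}
    (h : ∀ o : X, ∀ R : ℝ, ∃ g, LocalSobolev m g ∧ ∀ᵐ x ∂m, x ∈ Metric.ball o R → f x = g x) :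
    LocalSobolev m f :=
  tp_localSobolev_of_local hfin h

/-! ### A4. chain rule, Leibniz inequality, lattice operations -/

theorem gc_ls_comp_lip (hfin : FiniteOnBoundedSets m) {f : X → ℝ} {φ : ℝ → ℝ} {L : ℝ≥0}
    (hφ : LipschitzWith L φ) (hf : LocalSobolev m f) : LocalSobolev m (fun x => φ (f x)) :=
  tp_localSobolev_comp_lipschitz hfin hf hφ

theorem gc_ls_comp_C1 (hfin : FiniteOnBoundedSets m) {f : X → ℝ} {φ : ℝ → ℝ}
    (hφ : ContDiff ℝ 1 φ) (hf : LocalSobolev m f) (hb : gc_LocBdd m f) :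
    LocalSobolev m (fun x => φ (f x)) :=
  (tp_chain_contDiff hfin hf hb hφ).1

/-- chain rule for Lipschitz `φ`; `deriv φ` has its junk value `0` where `φ` is not differentiable. -/
theorem gc_wg_comp_lip (hfin : FiniteOnBoundedSets m) {f : X → ℝ} {φ : ℝ → ℝ} {L : ℝ≥0}
    (hφ : LipschitzWith L φ) (hf : LocalSobolev m f) :
    ∀ᵐ x ∂m, weakGradient m (fun x => φ (f x)) x = |deriv φ (f x)| * weakGradient m f x :=
  tp_weakGradient_comp_lipschitz hfin hf hφ

theorem gc_wg_comp_C1 (hfin : FiniteOnBoundedSets m) {f : X → ℝ} {φ : ℝ → ℝ}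
    (hφ : ContDiff ℝ 1 φ) (hf : LocalSobolev m f) (hφf : LocalSobolev m (fun x => φ (f x))) :
    ∀ᵐ x ∂m, weakGradient m (fun x => φ (f x)) x = |deriv φ (f x)| * weakGradient m f x := by
  have key : ∀ n : ℕ, ∀ᵐ x ∂m, f x ∈ Ioo (-(n : ℝ)) (n : ℝ) →
      weakGradient m (fun x => φ (f x)) x = |deriv φ (f x)| * weakGradient m f x := by
    intro n
    have hn0 : (0 : ℝ) ≤ n := Nat.cast_nonneg n
    have hfn : LocalSobolev m (fun x => max (-(n : ℝ)) (min (n : ℝ) (f x))) :=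
      tp_localSobolev_clamp hfin hf _ _
    have hbn : tp_LocBdd m (fun x => max (-(n : ℝ)) (min (n : ℝ) (f x))) := by
      intro o R
      refine ⟨n, Eventually.of_forall fun x _ => ?_⟩
      rw [abs_le]
      exact ⟨le_max_left _ _, max_le (by linarith) (min_le_left _ _)⟩
    obtain ⟨hc1, hc2⟩ := tp_chain_contDiff hfin hfn hbn hφ
    filter_upwards [gc_wg_eq_on hfin hφf hc1, hc2,
      tp_weakGradient_clamp hfin hf (a := -(n : ℝ)) (b := (n : ℝ)) (by linarith)] with x h1 h2 h3 hx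
    have e : max (-(n : ℝ)) (min (n : ℝ) (f x)) = f x := by
      rw [min_eq_right hx.2.le, max_eq_right hx.1.le]
    rw [h1 (by rw [e]), h2, e, h3.1 hx]
  filter_upwards [ae_all_iff.2 key] with x hx
  obtain ⟨n, hn⟩ := exists_nat_gt |f x|
  exact hx n (abs_lt.1 hn)

theorem gc_aux_lip_on_Icc {φ φ' : ℝ → ℝ} {a b : ℝ}
    (hφ : ∀ y ∈ Icc a b, HasDerivWithinAt φ (φ' y) (Icc a b) y) (hc : ContinuousOn φ' (Icc a b)) :
    ∃ L : ℝ≥0, LipschitzOnWith L φ (Icc a b) := by
  obtain ⟨C, hC⟩ := isCompact_Icc.exists_bound_of_continuousOn hc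
  refine ⟨C.toNNReal, (convex_Icc a b).lipschitzOnWith_of_nnnorm_hasDerivWithin_le hφ
    (fun x hx => ?_)⟩
  rw [← NNReal.coe_le_coe, coe_nnnorm]
  exact (hC x hx).trans (Real.le_coe_toNNReal C)

theorem gc_aux_chain_on (hfin : FiniteOnBoundedSets m) {f : X → ℝ} {φ φ' : ℝ → ℝ} {a b : ℝ}
    (hf : LocalSobolev m f) (hr : ∀ᵐ x ∂m, f x ∈ Icc a b)
    (hφ : ∀ y ∈ Icc a b, HasDerivWithinAt φ (φ' y) (Icc a b) y) (hc : ContinuousOn φ' (Icc a b)) :
    LocalSobolev m (fun x => φ (f x)) ∧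
      weakGradient m (fun x => φ (f x)) =ᵐ[m] fun x => |deriv φ (f x)| * weakGradient m f x := by
  obtain ⟨L, hL⟩ := gc_aux_lip_on_Icc hφ hc
  exact tp_chain_local hfin hf (fun _ _ => ⟨a, b, L, hr.mono (fun x hx _ => hx), hL⟩)

/-- chain rule for `φ` which is `C¹` only on an interval containing the (essential) range of `f`. -/
theorem gc_ls_comp_on (hfin : FiniteOnBoundedSets m) {f : X → ℝ} {φ φ' : ℝ → ℝ} {a b : ℝ}
    (hf : LocalSobolev m f) (hr : ∀ᵐ x ∂m, f x ∈ Icc a b)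
    (hφ : ∀ y ∈ Icc a b, HasDerivWithinAt φ (φ' y) (Icc a b) y) (hc : ContinuousOn φ' (Icc a b)) :
    LocalSobolev m (fun x => φ (f x)) :=
  (gc_aux_chain_on hfin hf hr hφ hc).1

theorem gc_wg_comp_on (hfin : FiniteOnBoundedSets m) {f : X → ℝ} {φ φ' : ℝ → ℝ} {a b : ℝ}
    (hf : LocalSobolev m f) (hr : ∀ᵐ x ∂m, f x ∈ Icc a b)
    (hφ : ∀ y ∈ Icc a b, HasDerivWithinAt φ (φ' y) (Icc a b) y) (hc : ContinuousOn φ' (Icc a b)) :
    ∀ᵐ x ∂m, weakGradient m (fun x => φ (f x)) x = |φ' (f x)| * weakGradient m f x := by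
  filter_upwards [(gc_aux_chain_on hfin hf hr hφ hc).2, hr, gc_wg_zero_on_level hfin hf a,
    gc_wg_zero_on_level hfin hf b] with x hx hxr hxa hxb
  rw [hx]
  by_cases h1 : f x = a
  · rw [hxa h1, mul_zero, mul_zero]
  by_cases h2 : f x = b
  · rw [hxb h2, mul_zero, mul_zero]
  have h3 : a < f x := lt_of_le_of_ne hxr.1 (Ne.symm h1)
  have h4 : f x < b := lt_of_le_of_ne hxr.2 h2
  rw [((hφ (f x) hxr).hasDerivAt (Icc_mem_nhds h3 h4)).deriv]

theorem gc_aux_chain_loc (hfin : FiniteOnBoundedSets m) {f : X → ℝ} {φ : ℝ → ℝ} {U : Set ℝ}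
    (hφ : ContDiffOn ℝ 1 φ U) (hf : LocalSobolev m f)
    (hr : ∀ o : X, ∀ R : ℝ, ∃ a b : ℝ, Icc a b ⊆ U ∧ ∀ᵐ x ∂m, x ∈ Metric.ball o R → f x ∈ Icc a b) :
    LocalSobolev m (fun x => φ (f x)) ∧
      weakGradient m (fun x => φ (f x)) =ᵐ[m] fun x => |deriv φ (f x)| * weakGradient m f x := by
  refine tp_chain_local hfin hf (fun o R => ?_)
  obtain ⟨a, b, hab, h⟩ := hr o R
  obtain ⟨L, hL⟩ := (hφ.mono hab).exists_lipschitzOnWith one_ne_zero (convex_Icc a b) isCompact_Icc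
  exact ⟨a, b, L, h, hL⟩

/-- local version: `φ` is `C¹` on the open set `U`, and on every ball `f` takes a.e. its values in a compact
interval contained in `U` (example: `log f` for `f` locally bounded and locally bounded away from `0`). -/
theorem gc_ls_comp_loc (hfin : FiniteOnBoundedSets m) {f : X → ℝ} {φ : ℝ → ℝ} {U : Set ℝ}
    (hU : IsOpen U) (hφ : ContDiffOn ℝ 1 φ U) (hf : LocalSobolev m f)
    (hr : ∀ o : X, ∀ R : ℝ, ∃ a b : ℝ, Icc a b ⊆ U ∧ ∀ᵐ x ∂m, x ∈ Metric.ball o R → f x ∈ Icc a b) :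
    LocalSobolev m (fun x => φ (f x)) :=
  (gc_aux_chain_loc hfin hφ hf hr).1

theorem gc_wg_comp_loc (hfin : FiniteOnBoundedSets m) {f : X → ℝ} {φ : ℝ → ℝ} {U : Set ℝ}
    (hU : IsOpen U) (hφ : ContDiffOn ℝ 1 φ U) (hf : LocalSobolev m f)
    (hr : ∀ o : X, ∀ R : ℝ, ∃ a b : ℝ, Icc a b ⊆ U ∧ ∀ᵐ x ∂m, x ∈ Metric.ball o R → f x ∈ Icc a b) :
    ∀ᵐ x ∂m, weakGradient m (fun x => φ (f x)) x = |deriv φ (f x)| * weakGradient m f x :=
  (gc_aux_chain_loc hfin hφ hf hr).2

theorem gc_ls_mul (hfin : FiniteOnBoundedSets m) {f g : X → ℝ} (hf : LocalSobolev m f)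
    (hg : LocalSobolev m g) (hfb : gc_LocBdd m f) (hgb : gc_LocBdd m g) :
    LocalSobolev m (fun x => f x * g x) :=
  tp_localSobolev_mul_of_locBdd hfin hf hg hfb hgb

theorem gc_ls_mul_lipLoc (hfin : FiniteOnBoundedSets m) {f g : X → ℝ} (hf : LocalSobolev m f)
    (hg : gc_LipLoc g) : LocalSobolev m (fun x => f x * g x) := by
  have h := (tp_localSobolev_lip_mul hfin hf (χ := g) hg).1
  have e : (fun x => f x * g x) = fun x => g x * f x := funext fun x => mul_comm _ _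
  rw [e]
  exact h

theorem gc_aux_clamp_locBdd (f : X → ℝ) (n : ℕ) :
    tp_LocBdd m (fun x => max (-(n : ℝ)) (min (n : ℝ) (f x))) := by
  intro o R
  refine ⟨n, Filter.Eventually.of_forall fun x _ => ?_⟩
  have hn : (0 : ℝ) ≤ n := Nat.cast_nonneg n
  rw [abs_le]
  exact ⟨le_max_left _ _, max_le (by linarith) (min_le_left _ _)⟩

theorem gc_aux_clamp_eq {a : ℝ} {n : ℕ} (h : |a| < n) : max (-(n : ℝ)) (min (n : ℝ) a) = a := by
  have h' := abs_lt.1 h
  rw [min_eq_right h'.2.le, max_eq_right h'.1.le]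

theorem gc_wg_mul_le (hfin : FiniteOnBoundedSets m) {f g : X → ℝ} (hf : LocalSobolev m f)
    (hg : LocalSobolev m g) (hfg : LocalSobolev m (fun x => f x * g x)) :
    ∀ᵐ x ∂m, weakGradient m (fun x => f x * g x) x
      ≤ |f x| * weakGradient m g x + |g x| * weakGradient m f x := by
  have key : ∀ n : ℕ, ∀ᵐ x ∂m, |f x| < n → |g x| < n →
      weakGradient m (fun x => f x * g x) x
        ≤ |f x| * weakGradient m g x + |g x| * weakGradient m f x := by
    intro n
    have hn : -(n : ℝ) ≤ n := by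
      have : (0 : ℝ) ≤ n := Nat.cast_nonneg n
      linarith
    have hfn := tp_localSobolev_clamp hfin hf (-(n : ℝ)) n
    have hgn := tp_localSobolev_clamp hfin hg (-(n : ℝ)) n
    have bf := gc_aux_clamp_locBdd (m := m) f n
    have bg := gc_aux_clamp_locBdd (m := m) g n
    have hprod := tp_localSobolev_mul_of_locBdd hfin hfn hgn bf bg
    filter_upwards [gc_wg_eq_on hfin hfg hprod, tp_weakGradient_mul_le_of_locBdd hfn hgn bf bg,
      tp_weakGradient_clamp hfin hf hn, tp_weakGradient_clamp hfin hg hn] with x E1 E2 E3 E4 h1 h2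
    have e1 := gc_aux_clamp_eq h1
    have e2 := gc_aux_clamp_eq h2
    have m1 : f x ∈ Ioo (-(n : ℝ)) n := abs_lt.1 h1
    have m2 : g x ∈ Ioo (-(n : ℝ)) n := abs_lt.1 h2
    rw [E1 (by rw [e1, e2])]
    rw [e1, e2, E3.1 m1, E4.1 m2] at E2
    exact E2
  filter_upwards [ae_all_iff.2 key] with x hx
  obtain ⟨n, hn⟩ := exists_nat_gt (max |f x| |g x|)
  exact hx n (lt_of_le_of_lt (le_max_left _ _) hn) (lt_of_le_of_lt (le_max_right _ _) hn)

theorem gc_ls_max (hfin : FiniteOnBoundedSets m) {f g : X → ℝ} (hf : LocalSobolev m f)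
    (hg : LocalSobolev m g) : LocalSobolev m (fun x => max (f x) (g x)) :=
  tp_localSobolev_max hfin hf hg

theorem gc_ls_min (hfin : FiniteOnBoundedSets m) {f g : X → ℝ} (hf : LocalSobolev m f)
    (hg : LocalSobolev m g) : LocalSobolev m (fun x => min (f x) (g x)) :=
  tp_localSobolev_min hfin hf hg

theorem gc_ls_abs (hfin : FiniteOnBoundedSets m) {f : X → ℝ} (hf : LocalSobolev m f) :
    LocalSobolev m (fun x => |f x|) :=
  tp_localSobolev_abs hfin hf

/-! ### A5. Lipschitz functions -/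

theorem gc_ls_of_lipLoc (hfin : FiniteOnBoundedSets m) {f : X → ℝ} (hf : gc_LipLoc f) :
    LocalSobolev m f :=
  tp_localSobolev_of_lipOnBdd hfin hf

theorem gc_wg_le_slope (hfin : FiniteOnBoundedSets m) {f : X → ℝ} (hf : gc_LipLoc f) :
    ∀ᵐ x ∂m, ENNReal.ofReal (weakGradient m f x) ≤ localSlope f x :=
  tp_weakGradient_le_localSlope hfin hf

theorem gc_wg_le_lip (hfin : FiniteOnBoundedSets m) {f : X → ℝ} {L : ℝ≥0}
    (hf : LipschitzWith L f) : ∀ᵐ x ∂m, weakGradient m f x ≤ L :=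
  tp_weakGradient_le_of_lipschitz hfin hf

theorem gc_wg_le_lipOn (hfin : FiniteOnBoundedSets m) {f : X → ℝ} {L : ℝ≥0} {U : Set X}
    (hU : IsOpen U) (hf : LocalSobolev m f) (hL : LipschitzOnWith L f U) :
    ∀ᵐ x ∂m, x ∈ U → weakGradient m f x ≤ L := by
  obtain ⟨g, hg, heq⟩ := hL.extend_real
  have hgs : LocalSobolev m g := gc_ls_of_lipLoc hfin (gc_lipLoc_of_lip ⟨L, hg⟩)
  filter_upwards [gc_wg_eq_on hfin hf hgs, gc_wg_le_lip hfin hg] with x h1 h2 hx
  rw [h1 (heq hx)]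
  exact h2

theorem gc_wg_dist_le (hfin : FiniteOnBoundedSets m) (x : X) :
    ∀ᵐ z ∂m, weakGradient m (fun z => dist z x) z ≤ 1 := by
  have h : LipschitzWith 1 (fun z => dist z x) := LipschitzWith.dist_left x
  simpa using gc_wg_le_lip hfin h

theorem gc_wg_wfun_le (hfin : FiniteOnBoundedSets m) (x : X) :
    ∀ᵐ z ∂m, weakGradient m (wfun x) z ≤ dist z x := by
  have hφ : ContDiff ℝ 1 (fun t : ℝ => t ^ 2 / 2) := by fun_prop
  have hd : LocalSobolev m (fun z => dist z x) := gc_ls_of_lipLoc hfin (gc_lipLoc_dist x)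
  have hw : LocalSobolev m (fun z => (fun t : ℝ => t ^ 2 / 2) (dist z x)) :=
    gc_ls_of_lipLoc hfin (gc_lipLoc_wfun x)
  have hder : ∀ t : ℝ, deriv (fun t : ℝ => t ^ 2 / 2) t = t := by
    intro t
    have h1 : HasDerivAt (fun t : ℝ => t ^ 2 / 2) (2 * t / 2) t := by
      simpa using (hasDerivAt_pow 2 t).div_const 2
    rw [h1.deriv]; ring
  filter_upwards [gc_wg_comp_C1 hfin hφ hd hw, gc_wg_dist_le hfin x] with z h1 h2
  have h3 : weakGradient m (wfun x) z = |dist z x| * weakGradient m (fun z => dist z x) z := by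
    rw [← hder (dist z x)]; exact h1
  rw [h3, abs_of_nonneg dist_nonneg]
  exact mul_le_of_le_one_right dist_nonneg h2

/-! ### A6. the class `Sobolev` -/

theorem gc_aux_memLp_of_locallyL2 {g : X → ℝ} (hg : LocallyL2 m g) {o : X} {R : ℝ}
    (h : ∀ᵐ x ∂m, x ∉ Metric.ball o R → g x = 0) : MemLp g 2 m := by
  rcases le_or_gt R 0 with hR | hR
  · refine MemLp.ae_eq ?_ (MemLp.zero (ε := ℝ))
    filter_upwards [h] with x hx
    rw [Metric.ball_eq_empty.2 hR] at hx
    exact (hx (notMem_empty x)).symm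
  · have h1 : MemLp ((Metric.ball o R).indicator g) 2 m :=
      (memLp_indicator_iff_restrict Metric.isOpen_ball.measurableSet).2 (hg o R hR)
    refine h1.ae_eq ?_
    filter_upwards [h] with x hx
    by_cases hxb : x ∈ Metric.ball o R
    · rw [indicator_of_mem hxb]
    · rw [indicator_of_notMem hxb, hx hxb]

theorem gc_sob_of_ls_bddSupp (hfin : FiniteOnBoundedSets m) {f : X → ℝ} (hf : LocalSobolev m f)
    (hs : gc_BddSuppAE m f) : Sobolev m f := by
  obtain ⟨o, R, h⟩ := hs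
  refine ⟨gc_aux_memLp_of_locallyL2 hf.1 h, hf, gc_aux_memLp_of_locallyL2 (gc_wg_locallyL2 f) (o := o) (R := R) ?_⟩
  filter_upwards [h, gc_wg_zero_on_level hfin hf 0] with x h1 h2 hx
  exact h2 (h1 hx)

theorem gc_sob_of_lipC (hfin : FiniteOnBoundedSets m) {f : X → ℝ} (hf : LipC f) :
    Sobolev m f :=
  tp_sobolev_of_lipC hfin hf

theorem gc_sob_zero (hfin : FiniteOnBoundedSets m) : Sobolev m (fun _ : X => (0 : ℝ)) :=
  tp_sobolev_zero m

theorem gc_sob_add (hfin : FiniteOnBoundedSets m) {f g : X → ℝ} (hf : Sobolev m f)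
    (hg : Sobolev m g) : Sobolev m (fun x => f x + g x) :=
  tp_sobolev_add hfin hf hg

theorem gc_sob_sub (hfin : FiniteOnBoundedSets m) {f g : X → ℝ} (hf : Sobolev m f)
    (hg : Sobolev m g) : Sobolev m (fun x => f x - g x) :=
  tp_sobolev_sub hfin hf hg

theorem gc_sob_neg (hfin : FiniteOnBoundedSets m) {f : X → ℝ} (hf : Sobolev m f) :
    Sobolev m (fun x => - f x) :=
  tp_sobolev_neg hfin hf

theorem gc_sob_const_mul (hfin : FiniteOnBoundedSets m) (c : ℝ) {f : X → ℝ} (hf : Sobolev m f) :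
    Sobolev m (fun x => c * f x) :=
  tp_sobolev_const_mul hfin c hf

theorem gc_sob_mul_lipB (hfin : FiniteOnBoundedSets m) {f g : X → ℝ} (hf : Sobolev m f)
    (hg : LipB g) : Sobolev m (fun x => f x * g x) := by
  have := tp_sobolev_lipB_mul hfin hf hg
  simpa only [mul_comm] using this

/-- `W^{1,2} ∩ L^∞` is an algebra. -/
theorem gc_sob_mul (hfin : FiniteOnBoundedSets m) {f g : X → ℝ} {A B : ℝ} (hf : Sobolev m f)
    (hg : Sobolev m g) (hfb : AEBdd m f A) (hgb : AEBdd m g B) :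
    Sobolev m (fun x => f x * g x) :=
  tp_sobolev_mul hfin hf hg hfb hgb

/-- a `LocalSobolev` function times a Lipschitz cut-off is `Sobolev`
(`f` locally bounded, or not: the Leibniz inequality needs only `f ∈ L²_loc`). -/
theorem gc_sob_mul_lipC (hfin : FiniteOnBoundedSets m) {f g : X → ℝ} (hf : LocalSobolev m f)
    (hg : LipC g) : Sobolev m (fun x => f x * g x) := by
  have := tp_sobolev_cutoff hfin hf hg.1 (tp_bddSupp_of_hasCompactSupport hg.2)
  simpa only [mul_comm] using this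

theorem gc_sob_comp_lip (hfin : FiniteOnBoundedSets m) {f : X → ℝ} {φ : ℝ → ℝ} {L : ℝ≥0}
    (hφ : LipschitzWith L φ) (h0 : φ 0 = 0) (hf : Sobolev m f) :
    Sobolev m (fun x => φ (f x)) :=
  tp_sobolev_comp_lipschitz hfin hf hφ h0

theorem gc_sob_comp_C1 (hfin : FiniteOnBoundedSets m) {f : X → ℝ} {φ : ℝ → ℝ} {B : ℝ}
    (hφ : ContDiff ℝ 1 φ) (h0 : φ 0 = 0) (hf : Sobolev m f) (hb : AEBdd m f B) :
    Sobolev m (fun x => φ (f x)) := by
  obtain ⟨K, hK⟩ := (hφ.locallyLipschitz.locallyLipschitzOn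
    (s := Icc (-|B|) |B|)).exists_lipschitzOnWith_of_compact isCompact_Icc
  obtain ⟨ψ, hψ, hEq⟩ := hK.extend_real
  have h00 : (0 : ℝ) ∈ Icc (-|B|) |B| := ⟨by simp, abs_nonneg B⟩
  have hψ0 : ψ 0 = 0 := by rw [← hEq h00, h0]
  have h1 : Sobolev m (fun x => ψ (f x)) := tp_sobolev_comp_lipschitz hfin hf hψ hψ0
  refine gc_sob_congr ?_ h1
  filter_upwards [hb] with x hx
  have hx' : f x ∈ Icc (-|B|) |B| := abs_le.1 (hx.trans (le_abs_self B))
  exact (hEq hx').symm

theorem gc_sob_max (hfin : FiniteOnBoundedSets m) {f g : X → ℝ} (hf : Sobolev m f)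
    (hg : Sobolev m g) : Sobolev m (fun x => max (f x) (g x)) :=
  tp_sobolev_max hfin hf hg

theorem gc_sob_min (hfin : FiniteOnBoundedSets m) {f g : X → ℝ} (hf : Sobolev m f)
    (hg : Sobolev m g) : Sobolev m (fun x => min (f x) (g x)) :=
  tp_sobolev_min hfin hf hg

theorem gc_sob_abs (hfin : FiniteOnBoundedSets m) {f : X → ℝ} (hf : Sobolev m f) :
    Sobolev m (fun x => |f x|) :=
  tp_sobolev_abs hfin hf

/-- criterion -/
theorem gc_sob_of_ls (hfin : FiniteOnBoundedSets m) {f D : X → ℝ} (hf : LocalSobolev m f)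
    (h2 : MemLp f 2 m) (hD : MemLp D 2 m) (h : ∀ᵐ x ∂m, weakGradient m f x ≤ D x) :
    Sobolev m f :=
  tp_sobolev_of_le h2 hf hD h

/-! ### A7. stability and the upper gradient inequality -/

/-- TP5 in the form: strong `L²_loc` limits of (function, w.u.g.) pairs. -/
theorem gc_wug_stability (hfin : FiniteOnBoundedSets m) {fs Ds : ℕ → X → ℝ} {f D : X → ℝ}
    (h : ∀ n, IsLocalWeakUpperGradient m (fs n) (Ds n)) (hfs : ∀ n, LocallyL2 m (fs n))
    (hf : ∀ o : X, ∀ R : ℝ, Tendsto (fun n => eLpNorm (fun x => fs n x - f x) 2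
      (m.restrict (Metric.ball o R))) atTop (𝓝 0))
    (hD : ∀ o : X, ∀ R : ℝ, Tendsto (fun n => eLpNorm (fun x => Ds n x - D x) 2
      (m.restrict (Metric.ball o R))) atTop (𝓝 0))
    (hfl : LocallyL2 m f) (hDl : LocallyL2 m D) :
    IsLocalWeakUpperGradient m f D :=
  tp_stability h hfs hfl hDl hf hD

end Claimed.Agent.R210.GC.WG
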