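/-
Row 210 (S0432), layer GC, interface part C0: bridge between the frozen Sobolev class / energy and the frozen
Cheeger energy (layer ID) and the abstract form `ChL2 m` (layers RS, HS).
Architect: helper277.  Consumers: import `Claimed.Agent.R210.GC.Ifc`.
-/
import Claimed.Agent.R210.GC.WG
import Claimed.Agent.R210.RS.Ifc
import Claimed.Agent.R210.HS.Ifc
import Claimed.Agent.R210.ID.Ifc

set_option autoImplicit false

open Claims.C0366 Claims.C0366.WeakHessian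
open Set Filter MeasureTheory
open scoped ENNReal NNReal Topology RealInnerProductSpace

namespace Claimed.Agent.R210.GC.Bridge

open Claimed.Agent.R210.Defs Claimed.Agent.R210.Defs2 Claimed.Agent.R210.GC.Defs
open Claimed.Agent.R210.HS.Defs

variable {X : Type*} [MetricSpace X] [MeasurableSpace X] [BorelSpace X]
  [CompleteSpace X] [TopologicalSpace.SeparableSpace X] [ProperSpace X]
  {m : Measure X} {K N : ℝ}

/-! ### what we need from layer ID (to be replaced by the exports of `ID/Ifc.lean`) -/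

/-- ID1 -/
theorem gc_need_id1 (hS : Std m K N) {f : X → ℝ} :
    Sobolev m f ↔ MemLp f 2 m ∧ cheegerEnergy m f < ∞ :=
  Claimed.Agent.R210.ID.Ifc.id_sobolev_iff hS

/-- ID2 -/
theorem gc_need_id2 (hS : Std m K N) {f : X → ℝ} (hf : Sobolev m f) :
    weakGradient m f =ᵐ[m] Claimed.Agent.R210.RS.Defs.rs_slope m f :=
  Claimed.Agent.R210.ID.Ifc.id_grad_eq hS hf

/-! ### C0. bridge to `cheegerEnergy` and to the abstract form `ChL2 m` -/

theorem gc_sob_iff (hS : Std m K N) {f : X → ℝ} :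
    Sobolev m f ↔ MemLp f 2 m ∧ cheegerEnergy m f < ∞ := by
  exact gc_need_id1 hS

theorem gc_ch_eq (hS : Std m K N) {f : X → ℝ} (hf : Sobolev m f) :
    cheegerEnergy m f = ENNReal.ofReal (energy m f / 2) := by
  have h := ((gc_sob_iff hS).1 hf).2
  rw [Claimed.Agent.R210.RS.Ifc.rs_cheeger_eq h]
  congr 2
  unfold energy
  refine integral_congr_ae ?_
  filter_upwards [gc_need_id2 hS hf] with x hx
  rw [hx]

theorem gc_qform (hS : Std m K N) : QForm (ChL2 m) := by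
  exact Claimed.Agent.R210.RS.Ifc.rs_qform hS.finite hS.quad

theorem gc_chL2_lt_top_iff (hS : Std m K N) (u : Lp ℝ 2 m) :
    ChL2 m u < ∞ ↔ Sobolev m (u : X → ℝ) := by
  constructor
  · intro h
    exact (gc_sob_iff hS).2 ⟨Lp.memLp u, h⟩
  · intro h
    exact ((gc_sob_iff hS).1 h).2

theorem gc_chL2_toLp (hS : Std m K N) {f : X → ℝ} (hf : MemLp f 2 m) :
    ChL2 m (hf.toLp f) = cheegerEnergy m f := by
  exact Claimed.Agent.R210.RS.Ifc.rs_ChL2_toLp hf

theorem gc_bil_eq (hS : Std m K N) {u v : Lp ℝ 2 m} (hu : ChL2 m u < ∞) (hv : ChL2 m v < ∞) :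
    bil (ChL2 m) u v = form m (u : X → ℝ) (v : X → ℝ) := by
  have hu' : Sobolev m (u : X → ℝ) := (gc_chL2_lt_top_iff hS u).1 hu
  have hv' : Sobolev m (v : X → ℝ) := (gc_chL2_lt_top_iff hS v).1 hv
  have hadd := Claimed.Agent.R210.GC.WG.gc_sob_add hS.finite hu' hv'
  have hsub := Claimed.Agent.R210.GC.WG.gc_sob_sub hS.finite hu' hv'
  have e1 : ChL2 m (u + v) = ENNReal.ofReal (energy m (fun x => u x + v x) / 2) := by
    rw [← gc_ch_eq hS hadd]
    exact Claimed.Agent.R210.RS.Ifc.rs_cheeger_congr (Lp.coeFn_add u v)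
  have e2 : ChL2 m (u - v) = ENNReal.ofReal (energy m (fun x => u x - v x) / 2) := by
    rw [← gc_ch_eq hS hsub]
    exact Claimed.Agent.R210.RS.Ifc.rs_cheeger_congr (Lp.coeFn_sub u v)
  have n1 : 0 ≤ energy m (fun x => u x + v x) / 2 :=
    div_nonneg (integral_nonneg fun _ => sq_nonneg _) (by norm_num)
  have n2 : 0 ≤ energy m (fun x => u x - v x) / 2 :=
    div_nonneg (integral_nonneg fun _ => sq_nonneg _) (by norm_num)
  unfold bil
  rw [e1, e2, ENNReal.toReal_ofReal n1, ENNReal.toReal_ofReal n2]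
  unfold form energy gamma
  rw [integral_div, integral_sub hadd.2.2.integrable_sq hsub.2.2.integrable_sq]
  ring

theorem gc_bil_toLp (hS : Std m K N) {f g : X → ℝ} (hf : Sobolev m f) (hg : Sobolev m g) :
    bil (ChL2 m) (hf.1.toLp f) (hg.1.toLp g) = form m f g := by
  have h1 : ChL2 m (hf.1.toLp f) < ∞ := by
    rw [gc_chL2_toLp hS hf.1]
    exact ((gc_sob_iff hS).1 hf).2
  have h2 : ChL2 m (hg.1.toLp g) < ∞ := by
    rw [gc_chL2_toLp hS hg.1]
    exact ((gc_sob_iff hS).1 hg).2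
  rw [gc_bil_eq hS h1 h2]
  have a1 : (fun y => (hf.1.toLp f : X → ℝ) y + (hg.1.toLp g : X → ℝ) y) =ᵐ[m] fun y => f y + g y := by
    filter_upwards [hf.1.coeFn_toLp, hg.1.coeFn_toLp] with y h1 h2
    rw [h1, h2]
  have a2 : (fun y => (hf.1.toLp f : X → ℝ) y - (hg.1.toLp g : X → ℝ) y) =ᵐ[m] fun y => f y - g y := by
    filter_upwards [hf.1.coeFn_toLp, hg.1.coeFn_toLp] with y h1 h2
    rw [h1, h2]
  unfold form gamma
  rw [Claimed.Agent.R210.GC.WG.gc_wg_congr a1, Claimed.Agent.R210.GC.WG.gc_wg_congr a2]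

/-! ### C0'. dictionary plain functions <-> `Lp ℝ 2 m` through `gc_lp` -/

theorem gc_lp_eq {f : X → ℝ} (hf : MemLp f 2 m) : gc_lp m f = hf.toLp f := by
  unfold gc_lp
  rw [dif_pos hf]

theorem gc_lp_coe {f : X → ℝ} (hf : MemLp f 2 m) : (gc_lp m f : X → ℝ) =ᵐ[m] f := by
  rw [gc_lp_eq hf]
  exact hf.coeFn_toLp

theorem gc_lp_self (u : Lp ℝ 2 m) : gc_lp m (u : X → ℝ) = u := by
  rw [gc_lp_eq (Lp.memLp u), Lp.toLp_coeFn]

theorem gc_lp_congr {f g : X → ℝ} (h : f =ᵐ[m] g) : gc_lp m f = gc_lp m g := by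
  by_cases hf : MemLp f 2 m
  · have hg : MemLp g 2 m := (memLp_congr_ae h).1 hf
    rw [gc_lp_eq hf, gc_lp_eq hg, (MemLp.toLp_eq_toLp_iff hf hg).2 h]
  · have hg : ¬ MemLp g 2 m := fun hg => hf ((memLp_congr_ae h).2 hg)
    unfold gc_lp
    rw [dif_neg hf, dif_neg hg]

theorem gc_lp_add {f g : X → ℝ} (hf : MemLp f 2 m) (hg : MemLp g 2 m) :
    gc_lp m (fun x => f x + g x) = gc_lp m f + gc_lp m g := by
  have h : MemLp (fun x => f x + g x) 2 m := hf.add hg
  rw [gc_lp_eq hf, gc_lp_eq hg, gc_lp_eq h, ← MemLp.toLp_add hf hg]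
  rfl

theorem gc_lp_sub {f g : X → ℝ} (hf : MemLp f 2 m) (hg : MemLp g 2 m) :
    gc_lp m (fun x => f x - g x) = gc_lp m f - gc_lp m g := by
  have h : MemLp (fun x => f x - g x) 2 m := hf.sub hg
  rw [gc_lp_eq hf, gc_lp_eq hg, gc_lp_eq h, ← MemLp.toLp_sub hf hg]
  rfl

theorem gc_lp_const_mul (c : ℝ) {f : X → ℝ} (hf : MemLp f 2 m) :
    gc_lp m (fun x => c * f x) = c • gc_lp m f := by
  have h : MemLp (fun x => c * f x) 2 m := hf.const_mul c
  rw [gc_lp_eq hf, gc_lp_eq h, ← MemLp.toLp_const_smul c hf]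
  rfl

theorem gc_lp_inner {f g : X → ℝ} (hf : MemLp f 2 m) (hg : MemLp g 2 m) :
    ⟪gc_lp m f, gc_lp m g⟫ = ∫ x, f x * g x ∂m := by
  rw [L2.inner_def]
  refine integral_congr_ae ?_
  filter_upwards [gc_lp_coe hf, gc_lp_coe hg] with x hx hy
  rw [hx, hy]
  simp [mul_comm]

theorem gc_lp_norm_sq {f : X → ℝ} (hf : MemLp f 2 m) : ‖gc_lp m f‖ ^ 2 = ∫ x, f x ^ 2 ∂m := by
  rw [← real_inner_self_eq_norm_sq, gc_lp_inner hf hf]
  congr 1
  funext x
  ring

theorem gc_lp_norm_sub {f g : X → ℝ} (hf : MemLp f 2 m) (hg : MemLp g 2 m) :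
    ENNReal.ofReal ‖gc_lp m f - gc_lp m g‖ = eLpNorm (fun x => f x - g x) 2 m := by
  rw [← gc_lp_sub hf hg, Lp.norm_def, ENNReal.ofReal_toReal (Lp.eLpNorm_ne_top _)]
  exact eLpNorm_congr_ae (gc_lp_coe (hf.sub hg))

theorem gc_lp_tendsto_iff {ι : Type*} {l : Filter ι} {fs : ι → X → ℝ} {f : X → ℝ}
    (hfs : ∀ᶠ i in l, MemLp (fs i) 2 m) (hf : MemLp f 2 m) :
    gc_L2Lim m l fs f ↔ Tendsto (fun i => gc_lp m (fs i)) l (𝓝 (gc_lp m f)) := by
  rw [tendsto_iff_norm_sub_tendsto_zero]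
  unfold gc_L2Lim
  have hev : (fun i => eLpNorm (fun x => fs i x - f x) 2 m) =ᶠ[l]
      fun i => ENNReal.ofReal ‖gc_lp m (fs i) - gc_lp m f‖ := by
    filter_upwards [hfs] with i hi
    exact (gc_lp_norm_sub hi hf).symm
  rw [tendsto_congr' hev]
  constructor
  · intro h
    have h2 := (ENNReal.tendsto_toReal ENNReal.zero_ne_top).comp h
    simp only [ENNReal.toReal_zero] at h2
    refine h2.congr fun i => ?_
    simp
  · intro h
    have h2 := ENNReal.tendsto_ofReal h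
    simpa using h2

theorem gc_chL2_lp (hS : Std m K N) {f : X → ℝ} (hf : MemLp f 2 m) :
    ChL2 m (gc_lp m f) = cheegerEnergy m f := by
  rw [gc_lp_eq hf]
  exact gc_chL2_toLp hS hf

theorem gc_chL2_lp_lt_top_iff (hS : Std m K N) {f : X → ℝ} (hf : MemLp f 2 m) :
    ChL2 m (gc_lp m f) < ∞ ↔ Sobolev m f := by
  rw [gc_chL2_lp hS hf]
  constructor
  · intro h
    exact (gc_sob_iff hS).2 ⟨hf, h⟩
  · intro h
    exact ((gc_sob_iff hS).1 h).2

theorem gc_chL2_lp_eq (hS : Std m K N) {f : X → ℝ} (hf : Sobolev m f) :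
    ChL2 m (gc_lp m f) = ENNReal.ofReal (energy m f / 2) := by
  rw [gc_chL2_lp hS hf.1]
  exact gc_ch_eq hS hf

theorem gc_chL2_lp_toReal (hS : Std m K N) {f : X → ℝ} (hf : Sobolev m f) :
    (ChL2 m (gc_lp m f)).toReal = energy m f / 2 := by
  rw [gc_chL2_lp_eq hS hf]
  exact ENNReal.toReal_ofReal (div_nonneg (integral_nonneg fun _ => sq_nonneg _) (by norm_num))

theorem gc_bil_lp (hS : Std m K N) {f g : X → ℝ} (hf : Sobolev m f) (hg : Sobolev m g) :
    bil (ChL2 m) (gc_lp m f) (gc_lp m g) = form m f g := by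
  rw [gc_lp_eq hf.1, gc_lp_eq hg.1]
  exact gc_bil_toLp hS hf hg

/-- integrals of products of `L²` functions converge -/
theorem gc_L2Lim_integral_mul {ι : Type*} {l : Filter ι} {fs : ι → X → ℝ} {f g : X → ℝ}
    (hfs : ∀ᶠ i in l, MemLp (fs i) 2 m) (hf : MemLp f 2 m) (hg : MemLp g 2 m)
    (h : gc_L2Lim m l fs f) :
    Tendsto (fun i => ∫ x, fs i x * g x ∂m) l (𝓝 (∫ x, f x * g x ∂m)) := by
  have h1 := (gc_lp_tendsto_iff hfs hf).1 h
  have h2 : Tendsto (fun i => ⟪gc_lp m (fs i), gc_lp m g⟫) l (𝓝 ⟪gc_lp m f, gc_lp m g⟫) :=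
    h1.inner tendsto_const_nhds
  rw [gc_lp_inner hf hg] at h2
  refine h2.congr' ?_
  filter_upwards [hfs] with i hi
  exact gc_lp_inner hi hg

end Claimed.Agent.R210.GC.Bridge
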