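/-
Row 210 (S0432), layer GC (part GCC): two abstract Hilbert space lemmas on a closed form `Q` used by `GC/Conv.lean`:
Riesz representation on the form domain and weak continuity of bounded linear functionals.
Architect: helper277.
-/
import Claimed.Agent.R210.HS.Ifc

set_option autoImplicit false

open Set Filter MeasureTheory
open scoped ENNReal NNReal Topology RealInnerProductSpace

namespace Claimed.Agent.R210.GC.ConvAux

open Claimed.Agent.R210.HS.Defs Claimed.Agent.R210.HS.Ifc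

variable {H : Type*} [NormedAddCommGroup H] [InnerProductSpace ℝ H] [CompleteSpace H]
  {Q : H → ℝ≥0∞}

/-- `‖J f‖² + b (J f) (J f) = ⟪f, J f⟫ ≤ ‖f‖²` for `J = prox Q 1`. -/
theorem gc_aux_form_prox (hQ : QForm Q) (f : H) :
    ‖prox Q 1 f‖ ^ 2 + bil Q (prox Q 1 f) (prox Q 1 f) = ⟪f, prox Q 1 f⟫ := by
  have := hs_prox_energy hQ one_pos f
  rwa [one_mul] at this

omit [CompleteSpace H] in
theorem gc_aux_sub (hQ : QForm Q) (ℓ : H → ℝ)
    (hadd : ∀ u v, Q u < ∞ → Q v < ∞ → ℓ (u + v) = ℓ u + ℓ v)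
    (hsmul : ∀ (c : ℝ) u, Q u < ∞ → ℓ (c • u) = c * ℓ u) {u v : H} (hu : Q u < ∞) (hv : Q v < ∞) :
    ℓ (u - v) = ℓ u - ℓ v := by
  have h1 : u - v = u + (-1 : ℝ) • v := by rw [neg_one_smul, sub_eq_add_neg]
  rw [h1, hadd u _ hu (hs_dom_smul hQ _ hv), hsmul _ v hv]
  ring

/-- Riesz representation in the Hilbert space `(dom Q, ‖u‖² + bil Q u u)`. -/
theorem gc_hs_riesz (hQ : QForm Q) (ℓ : H → ℝ) {M : ℝ}
    (hadd : ∀ u v, Q u < ∞ → Q v < ∞ → ℓ (u + v) = ℓ u + ℓ v)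
    (hsmul : ∀ (c : ℝ) u, Q u < ∞ → ℓ (c • u) = c * ℓ u)
    (hbd : ∀ u, Q u < ∞ → |ℓ u| ≤ M * Real.sqrt (‖u‖ ^ 2 + bil Q u u)) :
    ∃ z, Q z < ∞ ∧ ∀ u, Q u < ∞ → ℓ u = ⟪u, z⟫ + bil Q u z := by
  -- replace `M` by `|M|`
  set M' := |M| with hM'
  have hM0 : 0 ≤ M' := abs_nonneg M
  have hbd' : ∀ u, Q u < ∞ → |ℓ u| ≤ M' * Real.sqrt (‖u‖ ^ 2 + bil Q u u) := fun u hu =>
    (hbd u hu).trans (mul_le_mul_of_nonneg_right (le_abs_self M) (Real.sqrt_nonneg _))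
  have hJd : ∀ f, Q (prox Q 1 f) < ∞ := fun f => hs_prox_dom hQ one_pos f
  -- the functional `f ↦ ℓ (J f)` is bounded on `H`
  have hLbd : ∀ f, |ℓ (prox Q 1 f)| ≤ M' * Real.sqrt ⟪f, prox Q 1 f⟫ := by
    intro f
    have := hbd' _ (hJd f)
    rwa [gc_aux_form_prox hQ f] at this
  have hLbd2 : ∀ f, ‖ℓ (prox Q 1 f)‖ ≤ M' * ‖f‖ := by
    intro f
    refine (hLbd f).trans (mul_le_mul_of_nonneg_left ?_ hM0)
    have h1 : ⟪f, prox Q 1 f⟫ ≤ ‖f‖ * ‖f‖ :=
      (real_inner_le_norm _ _).trans (mul_le_mul_of_nonneg_left (hs_prox_norm_le hQ one_pos f) (norm_nonneg f))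
    calc Real.sqrt ⟪f, prox Q 1 f⟫ ≤ Real.sqrt (‖f‖ * ‖f‖) := Real.sqrt_le_sqrt h1
      _ = ‖f‖ := Real.sqrt_mul_self (norm_nonneg f)
  let L₀ : H →ₗ[ℝ] ℝ :=
    { toFun := fun f => ℓ (prox Q 1 f)
      map_add' := fun f g => by
        rw [hs_prox_add hQ one_pos, hadd _ _ (hJd f) (hJd g)]
      map_smul' := fun c f => by
        simp only [RingHom.id_apply, smul_eq_mul]
        rw [hs_prox_smul hQ one_pos, hsmul _ _ (hJd f)] }
  let L : H →L[ℝ] ℝ := L₀.mkContinuous M' hLbd2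
  set y : H := (InnerProductSpace.toDual ℝ H).symm L with hy
  have hyL : ∀ f, ⟪y, f⟫ = ℓ (prox Q 1 f) := by
    intro f
    rw [hy, InnerProductSpace.toDual_symm_apply]
    rfl
  -- `y` is in the form domain
  have hyos : ∀ δ, 0 < δ → δ⁻¹ * ⟪y - prox Q δ y, y⟫ ≤ M' ^ 2 := by
    intro δ hδ
    set v := prox Q δ y with hv
    set g := δ⁻¹ • (y - v) with hg
    set E := δ⁻¹ * ⟪y - v, y⟫ with hE
    have hvd : Q v < ∞ := hs_prox_dom hQ hδ y
    have hE0 : 0 ≤ E := hs_yosida_nonneg hQ hδ y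
    have hgen : IsGen Q v (-g) := by
      have := hs_prox_isGen hQ hδ y
      rw [← hv] at this
      have e : -g = δ⁻¹ • (v - y) := by rw [hg, ← smul_neg, neg_sub]
      rwa [e]
    have hJg : prox Q 1 g = v - prox Q 1 v := by
      have := hs_prox_sub_self hQ one_pos hgen
      rw [one_smul, hs_prox_neg hQ one_pos] at this
      rw [← neg_sub, this, neg_neg]
    have hbg : ∀ x, Q x < ∞ → ⟪g, x⟫ = bil Q v x := by
      intro x hx
      rw [hgen.2 x hx, inner_neg_left, neg_neg]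
    have h1 : ⟪g, prox Q 1 g⟫ ≤ bil Q v v := by
      rw [hJg, inner_sub_right, hbg v hvd, hbg _ (hJd v), hs_bil_comm hQ v (prox Q 1 v),
        hs_bil_prox_left hQ one_pos v hvd]
      have := hs_yosida_nonneg hQ one_pos v
      linarith
    have h2 : bil Q v v ≤ E := by
      have := hs_yosida_eq hQ hδ y
      rw [← hv] at this
      rw [hE, this, hs_bil_self hQ]
      have : 0 ≤ ‖v - y‖ ^ 2 / (2 * δ) := by positivity
      linarith
    have h3 : E = ℓ (prox Q 1 g) := by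
      rw [← hyL g, hg, inner_smul_right, real_inner_comm]
    have h4 : E ≤ M' * Real.sqrt E := by
      calc E = ℓ (prox Q 1 g) := h3
        _ ≤ |ℓ (prox Q 1 g)| := le_abs_self _
        _ ≤ M' * Real.sqrt ⟪g, prox Q 1 g⟫ := hLbd g
        _ ≤ M' * Real.sqrt E := mul_le_mul_of_nonneg_left (Real.sqrt_le_sqrt (h1.trans h2)) hM0
    have hs0 := Real.sqrt_nonneg E
    have hsq : Real.sqrt E ^ 2 = E := Real.sq_sqrt hE0
    nlinarith
  have hyd : Q y < ∞ := by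
    have h := hs_dom_of_yosida_le hQ hyos
    by_contra hcon
    have htop : Q y = ∞ := by simpa using hcon
    rw [htop, ENNReal.mul_top (by norm_num)] at h
    exact absurd h (by simp)
  refine ⟨y, hyd, ?_⟩
  -- the identity on `D(A)`
  have hDA : ∀ u w, IsGen Q u w → ℓ u = ⟪u, y⟫ + bil Q u y := by
    intro u w h
    have h1 := hs_prox_of_isGen hQ one_pos h
    have h2 := hs_prox_weak hQ one_pos (u - (1 : ℝ) • w) hyd
    rw [h1, one_mul] at h2
    rw [h2, real_inner_comm, hyL, h1]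
  -- density
  intro u hu
  have hu1 := hs_prox_tendsto hQ u
  have hu2 := hs_Q_prox_sub_tendsto hQ hu
  have hlim1 : Tendsto (fun δ => ⟪prox Q δ u, y⟫ + bil Q (prox Q δ u) y) (𝓝[>] 0) (𝓝 (⟪u, y⟫ + bil Q u y)) := by
    refine (hu1.inner tendsto_const_nhds).add ?_
    refine hs_bil_tendsto_strong hQ hu hyd hu2 ?_
    simp only [sub_self, hQ.zero]
    exact tendsto_const_nhds
  have hlim2 : Tendsto (fun δ => ℓ (prox Q δ u)) (𝓝[>] 0) (𝓝 (ℓ u)) := by
    rw [tendsto_iff_norm_sub_tendsto_zero]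
    have hb : Tendsto (fun δ => M' * Real.sqrt (‖prox Q δ u - u‖ ^ 2 + 2 * (Q (prox Q δ u - u)).toReal)) (𝓝[>] 0)
        (𝓝 (M' * Real.sqrt (‖u - u‖ ^ 2 + 2 * (0 : ℝ≥0∞).toReal))) := by
      refine Tendsto.const_mul _ (Tendsto.sqrt ?_)
      refine (((hu1.sub tendsto_const_nhds).norm).pow 2).add (Tendsto.const_mul _ ?_)
      exact (ENNReal.tendsto_toReal ENNReal.zero_ne_top).comp hu2
    simp only [sub_self, norm_zero, ENNReal.toReal_zero, mul_zero, add_zero, ne_eq, OfNat.ofNat_ne_zero,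
      not_false_eq_true, zero_pow, Real.sqrt_zero] at hb
    refine squeeze_zero' (Eventually.of_forall fun δ => norm_nonneg _) ?_ hb
    filter_upwards [self_mem_nhdsWithin] with δ hδ
    have hd : Q (prox Q δ u) < ∞ := hs_prox_dom hQ hδ u
    rw [← gc_aux_sub hQ ℓ hadd hsmul hd hu, Real.norm_eq_abs]
    have := hbd' _ (hs_dom_sub hQ hd hu)
    rwa [hs_bil_self hQ] at this
  refine tendsto_nhds_unique hlim2 (hlim1.congr' ?_)
  filter_upwards [self_mem_nhdsWithin] with δ hδ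
  exact (hDA _ _ (hs_prox_isGen hQ hδ u)).symm

/-- A linear functional on the form domain which is bounded for the form norm is continuous along
nets converging in `H` with bounded `Q`. -/
theorem gc_hs_weak_cont (hQ : QForm Q) (ℓ : H → ℝ) {M : ℝ}
    (hadd : ∀ u v, Q u < ∞ → Q v < ∞ → ℓ (u + v) = ℓ u + ℓ v)
    (hsmul : ∀ (c : ℝ) u, Q u < ∞ → ℓ (c • u) = c * ℓ u)
    (hbd : ∀ u, Q u < ∞ → |ℓ u| ≤ M * Real.sqrt (‖u‖ ^ 2 + bil Q u u))
    {ι : Type*} {l : Filter ι} [l.NeBot] {u : ι → H} {u₀ : H} {C : ℝ≥0∞} (hC : C < ∞)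
    (hu : Tendsto u l (𝓝 u₀)) (hb : ∀ᶠ i in l, Q (u i) ≤ C) :
    Tendsto (fun i => ℓ (u i)) l (𝓝 (ℓ u₀)) := by
  obtain ⟨z, hz, hrep⟩ := gc_hs_riesz hQ ℓ hadd hsmul hbd
  obtain ⟨hu₀, hbil⟩ := hs_bil_tendsto hQ hC hu hb hz
  have h1 : Tendsto (fun i => ⟪u i, z⟫ + bil Q (u i) z) l (𝓝 (⟪u₀, z⟫ + bil Q u₀ z)) :=
    (hu.inner tendsto_const_nhds).add hbil
  rw [hrep u₀ (lt_of_le_of_lt hu₀ hC)]
  refine h1.congr' ?_
  filter_upwards [hb] with i hi
  exact (hrep (u i) (lt_of_le_of_lt hi hC)).symm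

end Claimed.Agent.R210.GC.ConvAux
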