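/-
Row 210 (S0432), layer GC, interface part B: the calculus of the frozen `gamma`
(pointwise Hilbertianity, bilinearity, locality, chain rule, Leibniz rule, integrability).
Architect: helper277.  Consumers: import `Claimed.Agent.R210.GC.Ifc`.
-/
import Claimed.Agent.R210.GC.Bridge
import Claimed.Agent.R210.GCA.Ifc
import Claimed.Agent.R210.GCB.Ifc

set_option autoImplicit false

open Claims.C0366 Claims.C0366.WeakHessian
open Set Filter MeasureTheory
open scoped ENNReal NNReal Topology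

namespace Claimed.Agent.R210.GC.Gam

open Claimed.Agent.R210.Defs Claimed.Agent.R210.Defs2 Claimed.Agent.R210.GC.Defs
open Claimed.Agent.R210.GCB.Defs Claimed.Agent.R210.GCB.IfcA Claimed.Agent.R210.GCB.Ifc

variable {X : Type*} [MetricSpace X] [MeasurableSpace X] [BorelSpace X]
  [CompleteSpace X] [TopologicalSpace.SeparableSpace X] [ProperSpace X]
  {m : Measure X} {K N : ℝ}

/-! ### B0. facts that need no curvature -/

/-- equality of FUNCTIONS -/
theorem gc_gamma_congr {f f' g g' : X → ℝ} (hf : f =ᵐ[m] f') (hg : g =ᵐ[m] g') :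
    gamma m f g = gamma m f' g' := by
  exact gcb_gamma_congr hf hg

theorem gc_gamma_aesm (f g : X → ℝ) : AEStronglyMeasurable (gamma m f g) m := by
  exact gcb_gamma_aesm m f g

theorem gc_gamma_self (hfin : FiniteOnBoundedSets m) {f : X → ℝ} (hf : LocalSobolev m f) :
    ∀ᵐ x ∂m, gamma m f f x = (weakGradient m f x) ^ 2 := by
  have h2 := Claimed.Agent.R210.GC.WG.gc_wg_const_mul hfin 2 hf
  have h0 := gcb_wg_const m (0 : ℝ)
  filter_upwards [h2, h0] with x hx h0x
  have e1 : (fun y => f y + f y) = fun y => 2 * f y := by funext y; ring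
  have e2 : (fun y => f y - f y) = fun _ => (0 : ℝ) := by funext y; ring
  unfold gamma
  rw [e1, e2, hx, h0x, abs_of_pos (by norm_num : (0 : ℝ) < 2)]
  ring

theorem gc_gamma_self_nonneg (hfin : FiniteOnBoundedSets m) {f : X → ℝ}
    (hf : LocalSobolev m f) : ∀ᵐ x ∂m, 0 ≤ gamma m f f x := by
  exact gcb_gamma_self_nonneg m f

theorem gc_gamma_comm (hfin : FiniteOnBoundedSets m) {f g : X → ℝ} (hf : LocalSobolev m f)
    (hg : LocalSobolev m g) : ∀ᵐ x ∂m, gamma m f g x = gamma m g f x := by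
  exact Filter.Eventually.of_forall fun x => congrFun (gcb_gamma_comm m f g) x

/-! ### B1. GC-A: pointwise parallelogram law -/

theorem gc_parallelogram (hS : Std m K N) {f g : X → ℝ} (hf : LocalSobolev m f)
    (hg : LocalSobolev m g) :
    ∀ᵐ x ∂m, (weakGradient m (fun y => f y + g y) x) ^ 2 + (weakGradient m (fun y => f y - g y) x) ^ 2
      = 2 * (weakGradient m f x) ^ 2 + 2 * (weakGradient m g x) ^ 2 :=
  Claimed.Agent.R210.GCA.Ifc.gca_parallelogram hS hf hg

/-! ### B2. bilinearity -/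

theorem gc_gamma_add_left (hS : Std m K N) {f₁ f₂ g : X → ℝ} (h₁ : LocalSobolev m f₁)
    (h₂ : LocalSobolev m f₂) (hg : LocalSobolev m g) :
    ∀ᵐ x ∂m, gamma m (fun y => f₁ y + f₂ y) g x = gamma m f₁ g x + gamma m f₂ g x := by
  exact gcb_gamma_add_left hS h₁ h₂ hg

theorem gc_gamma_add_right (hS : Std m K N) {f g₁ g₂ : X → ℝ} (hf : LocalSobolev m f)
    (h₁ : LocalSobolev m g₁) (h₂ : LocalSobolev m g₂) :
    ∀ᵐ x ∂m, gamma m f (fun y => g₁ y + g₂ y) x = gamma m f g₁ x + gamma m f g₂ x := by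
  exact gcb_gamma_add_right hS hf h₁ h₂

theorem gc_gamma_sub_left (hS : Std m K N) {f₁ f₂ g : X → ℝ} (h₁ : LocalSobolev m f₁)
    (h₂ : LocalSobolev m f₂) (hg : LocalSobolev m g) :
    ∀ᵐ x ∂m, gamma m (fun y => f₁ y - f₂ y) g x = gamma m f₁ g x - gamma m f₂ g x := by
  exact gcb_gamma_sub_left hS h₁ h₂ hg

theorem gc_gamma_sub_right (hS : Std m K N) {f g₁ g₂ : X → ℝ} (hf : LocalSobolev m f)
    (h₁ : LocalSobolev m g₁) (h₂ : LocalSobolev m g₂) :
    ∀ᵐ x ∂m, gamma m f (fun y => g₁ y - g₂ y) x = gamma m f g₁ x - gamma m f g₂ x := by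
  exact gcb_gamma_sub_right hS hf h₁ h₂

theorem gc_gamma_const_mul_left (hS : Std m K N) (c : ℝ) {f g : X → ℝ} (hf : LocalSobolev m f)
    (hg : LocalSobolev m g) :
    ∀ᵐ x ∂m, gamma m (fun y => c * f y) g x = c * gamma m f g x := by
  exact gcb_gamma_const_mul_left hS c hf hg

theorem gc_gamma_const_mul_right (hS : Std m K N) (c : ℝ) {f g : X → ℝ} (hf : LocalSobolev m f)
    (hg : LocalSobolev m g) :
    ∀ᵐ x ∂m, gamma m f (fun y => c * g y) x = c * gamma m f g x := by
  exact gcb_gamma_const_mul_right hS c hf hg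

theorem gc_gamma_neg_left (hS : Std m K N) {f g : X → ℝ} (hf : LocalSobolev m f)
    (hg : LocalSobolev m g) : ∀ᵐ x ∂m, gamma m (fun y => - f y) g x = - gamma m f g x := by
  exact Filter.Eventually.of_forall fun x => congrFun (gcb_gamma_neg_left m f g) x

theorem gc_gamma_neg_right (hS : Std m K N) {f g : X → ℝ} (hf : LocalSobolev m f)
    (hg : LocalSobolev m g) : ∀ᵐ x ∂m, gamma m f (fun y => - g y) x = - gamma m f g x := by
  exact Filter.Eventually.of_forall fun x => congrFun (gcb_gamma_neg_right m f g) x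

theorem gc_gamma_const_left (hS : Std m K N) (c : ℝ) {g : X → ℝ} (hg : LocalSobolev m g) :
    ∀ᵐ x ∂m, gamma m (fun _ => c) g x = 0 := by
  exact Filter.Eventually.of_forall fun x => congrFun (gcb_gamma_const_left m c g) x

theorem gc_gamma_const_right (hS : Std m K N) (c : ℝ) {f : X → ℝ} (hf : LocalSobolev m f) :
    ∀ᵐ x ∂m, gamma m f (fun _ => c) x = 0 := by
  exact Filter.Eventually.of_forall fun x => congrFun (gcb_gamma_const_right m f c) x

theorem gc_gamma_add_const_left (hS : Std m K N) (c : ℝ) {f g : X → ℝ} (hf : LocalSobolev m f)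
    (hg : LocalSobolev m g) : ∀ᵐ x ∂m, gamma m (fun y => f y + c) g x = gamma m f g x := by
  exact Filter.Eventually.of_forall fun x => congrFun (gcb_gamma_add_const_left m f g c) x

theorem gc_gamma_add_const_right (hS : Std m K N) (c : ℝ) {f g : X → ℝ} (hf : LocalSobolev m f)
    (hg : LocalSobolev m g) : ∀ᵐ x ∂m, gamma m f (fun y => g y + c) x = gamma m f g x := by
  exact Filter.Eventually.of_forall fun x => congrFun (gcb_gamma_add_const_right m f g c) x

/-- `|D(f+g)|² = |Df|² + 2Γ(f,g) + |Dg|²` -/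
theorem gc_wg_add_sq (hS : Std m K N) {f g : X → ℝ} (hf : LocalSobolev m f)
    (hg : LocalSobolev m g) :
    ∀ᵐ x ∂m, (weakGradient m (fun y => f y + g y) x) ^ 2
      = (weakGradient m f x) ^ 2 + 2 * gamma m f g x + (weakGradient m g x) ^ 2 := by
  exact gcb_wg_sq_add hS hf hg

theorem gc_wg_sub_sq (hS : Std m K N) {f g : X → ℝ} (hf : LocalSobolev m f)
    (hg : LocalSobolev m g) :
    ∀ᵐ x ∂m, (weakGradient m (fun y => f y - g y) x) ^ 2
      = (weakGradient m f x) ^ 2 - 2 * gamma m f g x + (weakGradient m g x) ^ 2 := by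
  exact gcb_wg_sq_sub hS hf hg

/-- `|D(a+εg)|² = |Da|² + 2εΓ(g,a) + ε²|Dg|²` (form wanted by FO) -/
theorem gc_wg_add_smul_sq (hS : Std m K N) {a g : X → ℝ} (ha : LocalSobolev m a)
    (hg : LocalSobolev m g) (ε : ℝ) :
    ∀ᵐ x ∂m, (weakGradient m (fun y => a y + ε * g y) x) ^ 2
      = (weakGradient m a x) ^ 2 + 2 * ε * gamma m g a x + ε ^ 2 * (weakGradient m g x) ^ 2 := by
  rw [gcb_gamma_comm m g a]
  exact gcb_wg_sq_add_smul hS ha hg ε

/-! ### B3. Cauchy-Schwarz -/

theorem gc_gamma_abs_le (hS : Std m K N) {f g : X → ℝ} (hf : LocalSobolev m f)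
    (hg : LocalSobolev m g) :
    ∀ᵐ x ∂m, |gamma m f g x| ≤ weakGradient m f x * weakGradient m g x := by
  exact gcb_gamma_abs_le hS hf hg

/-- Young: `2|Γ(f,g)| ≤ a|Df|² + |Dg|²/a`. -/
theorem gc_gamma_young (hS : Std m K N) {f g : X → ℝ} (hf : LocalSobolev m f)
    (hg : LocalSobolev m g) {a : ℝ} (ha : 0 < a) :
    ∀ᵐ x ∂m, 2 * |gamma m f g x| ≤ a * (weakGradient m f x) ^ 2 + (weakGradient m g x) ^ 2 / a := by
  filter_upwards [gcb_gamma_abs_le hS hf hg] with x hx
  have h1 : 0 ≤ (a * weakGradient m f x - weakGradient m g x) ^ 2 / a := by positivity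
  have h2 : (a * weakGradient m f x - weakGradient m g x) ^ 2 / a
      = a * (weakGradient m f x) ^ 2 - 2 * (weakGradient m f x * weakGradient m g x)
        + (weakGradient m g x) ^ 2 / a := by
    field_simp
    ring
  linarith

/-! ### B4. locality -/

theorem gc_gamma_eq_on_left (hS : Std m K N) {f f' g : X → ℝ} (hf : LocalSobolev m f)
    (hf' : LocalSobolev m f') (hg : LocalSobolev m g) :
    ∀ᵐ x ∂m, f x = f' x → gamma m f g x = gamma m f' g x := by
  exact gcb_gamma_eq_on_left hS hf hf' hg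

theorem gc_gamma_eq_on_right (hS : Std m K N) {f g g' : X → ℝ} (hf : LocalSobolev m f)
    (hg : LocalSobolev m g) (hg' : LocalSobolev m g') :
    ∀ᵐ x ∂m, g x = g' x → gamma m f g x = gamma m f g' x := by
  exact gcb_gamma_eq_on_right hS hf hg hg'

theorem gc_gamma_zero_on_level_left (hS : Std m K N) {f g : X → ℝ} (hf : LocalSobolev m f)
    (hg : LocalSobolev m g) (c : ℝ) : ∀ᵐ x ∂m, f x = c → gamma m f g x = 0 := by
  exact gcb_gamma_eq_zero_on_const_left hS hf hg c

theorem gc_gamma_zero_on_level_right (hS : Std m K N) {f g : X → ℝ} (hf : LocalSobolev m f)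
    (hg : LocalSobolev m g) (c : ℝ) : ∀ᵐ x ∂m, g x = c → gamma m f g x = 0 := by
  exact gcb_gamma_eq_zero_on_const_right hS hf hg c

/-! ### B5. chain rule -/

/-- `C¹` chain rule; `LocalSobolev (φ ∘ f)` comes from `gc_ls_comp_C1` or `gc_ls_comp_lip`. -/
theorem gc_gamma_comp_left (hS : Std m K N) {f g : X → ℝ} {φ : ℝ → ℝ} (hφ : ContDiff ℝ 1 φ)
    (hf : LocalSobolev m f) (hφf : LocalSobolev m (fun x => φ (f x))) (hg : LocalSobolev m g) :
    ∀ᵐ x ∂m, gamma m (fun y => φ (f y)) g x = deriv φ (f x) * gamma m f g x := by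
  have hcl : ∀ n : ℕ, LocalSobolev m (fun x => max (min (f x) (n : ℝ)) (-(n : ℝ))) :=
    fun n => gcb_locSob_clamp hS hf n
  have hcb : ∀ n : ℕ, gcb_LocBdd m (fun x => max (min (f x) (n : ℝ)) (-(n : ℝ))) := by
    intro n o R
    refine ⟨n, Eventually.of_forall fun x _ => ?_⟩
    have hn : (0 : ℝ) ≤ n := Nat.cast_nonneg n
    rw [abs_le]
    exact ⟨le_max_right _ _, max_le (min_le_right _ _) (by linarith)⟩
  have h1 : ∀ᵐ x ∂m, ∀ n : ℕ,
      gamma m (fun y => φ (max (min (f y) (n : ℝ)) (-(n : ℝ)))) g x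
        = deriv φ (max (min (f x) (n : ℝ)) (-(n : ℝ)))
          * gamma m (fun y => max (min (f y) (n : ℝ)) (-(n : ℝ))) g x :=
    ae_all_iff.2 fun n => gcb_gamma_comp_left hS hφ (hcl n) (hcb n) hg
  have h2 : ∀ᵐ x ∂m, ∀ n : ℕ, φ (f x) = φ (max (min (f x) (n : ℝ)) (-(n : ℝ))) →
      gamma m (fun y => φ (f y)) g x
        = gamma m (fun y => φ (max (min (f y) (n : ℝ)) (-(n : ℝ)))) g x :=
    ae_all_iff.2 fun n =>
      gcb_gamma_eq_on_left hS hφf (gcb_locSob_comp_C1 hS hφ (hcl n) (hcb n)) hg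
  have h3 : ∀ᵐ x ∂m, ∀ n : ℕ, (|f x| < (n : ℝ) →
      gamma m (fun y => max (min (f y) (n : ℝ)) (-(n : ℝ))) g x = gamma m f g x) :=
    ae_all_iff.2 fun n => (gcb_gamma_clamp_left hS hf hg (Nat.cast_nonneg n)).mono fun x hx => hx.1
  filter_upwards [h1, h2, h3] with x hx1 hx2 hx3
  obtain ⟨n, hn⟩ := exists_nat_gt |f x|
  have hlt := abs_lt.1 hn
  have hc : max (min (f x) (n : ℝ)) (-(n : ℝ)) = f x := by
    rw [min_eq_left hlt.2.le, max_eq_left hlt.1.le]
  rw [hx2 n (by rw [hc]), hx1 n, hx3 n hn, hc]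

theorem gc_gamma_comp_right (hS : Std m K N) {f g : X → ℝ} {φ : ℝ → ℝ} (hφ : ContDiff ℝ 1 φ)
    (hf : LocalSobolev m f) (hg : LocalSobolev m g) (hφg : LocalSobolev m (fun x => φ (g x))) :
    ∀ᵐ x ∂m, gamma m f (fun y => φ (g y)) x = deriv φ (g x) * gamma m f g x := by
  rw [gcb_gamma_comm m f (fun y => φ (g y)), gcb_gamma_comm m f g]
  exact gc_gamma_comp_left hS hφ hg hφg hf

/-- `t ↦ φ t - q t` is Lipschitz. -/
theorem gc_aux_lip_sub_mul {φ : ℝ → ℝ} {L : ℝ≥0} (hφ : LipschitzWith L φ) (q : ℝ) :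
    LipschitzWith (L + Real.toNNReal |q|) (fun t => φ t - q * t) := by
  refine LipschitzWith.of_dist_le_mul fun a b => ?_
  have h1 := hφ.dist_le_mul a b
  rw [Real.dist_eq, Real.dist_eq] at *
  rw [NNReal.coe_add, Real.coe_toNNReal _ (abs_nonneg _)]
  calc |φ a - q * a - (φ b - q * b)| = |(φ a - φ b) - q * (a - b)| := by ring_nf
    _ ≤ |φ a - φ b| + |q * (a - b)| := abs_sub _ _
    _ ≤ L * |a - b| + |q| * |a - b| := by rw [abs_mul]; linarith
    _ = _ := by ring

/-- a real number is determined by rational comparison. -/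
theorem gc_aux_eq_of_rat {G1 G0 d c : ℝ} (h : ∀ q : ℚ, |G1 - q * G0| ≤ |d - q| * c) : G1 = d * G0 := by
  have hcl : IsClosed {r : ℝ | |G1 - r * G0| ≤ |d - r| * c} :=
    isClosed_le (by fun_prop) (by fun_prop)
  have hall : |G1 - d * G0| ≤ |d - d| * c :=
    Rat.denseRange_cast.induction_on (p := fun r : ℝ => |G1 - r * G0| ≤ |d - r| * c) d hcl h
  rw [sub_self, abs_zero, zero_mul] at hall
  exact sub_eq_zero.1 (abs_eq_zero.1 (le_antisymm hall (abs_nonneg _)))

/-- Lipschitz chain rule (`deriv φ = 0` at the points of non differentiability). -/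
theorem gc_gamma_comp_lip_left (hS : Std m K N) {f g : X → ℝ} {φ : ℝ → ℝ} {L : ℝ≥0}
    (hφ : LipschitzWith L φ) (hf : LocalSobolev m f) (hg : LocalSobolev m g) :
    ∀ᵐ x ∂m, gamma m (fun y => φ (f y)) g x = deriv φ (f x) * gamma m f g x := by
  have hZ : volume {t : ℝ | ¬ DifferentiableAt ℝ φ t} = 0 := ae_iff.1 hφ.ae_differentiableAt
  have hφf : LocalSobolev m (fun y => φ (f y)) := gcb_locSob_comp_lip hS hφ hf
  have hA : ∀ᵐ x ∂m, ∀ q : ℚ, gamma m (fun y => φ (f y) - (q : ℝ) * f y) g x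
      = gamma m (fun y => φ (f y)) g x - gamma m (fun y => (q : ℝ) * f y) g x :=
    ae_all_iff.2 fun q => gcb_gamma_sub_left hS hφf (gcb_locSob_const_mul hS q hf) hg
  have hB : ∀ᵐ x ∂m, ∀ q : ℚ, gamma m (fun y => (q : ℝ) * f y) g x = q * gamma m f g x :=
    ae_all_iff.2 fun q => gcb_gamma_const_mul_left hS q hf hg
  have hC : ∀ᵐ x ∂m, ∀ q : ℚ, |gamma m (fun y => φ (f y) - (q : ℝ) * f y) g x|
      ≤ weakGradient m (fun y => φ (f y) - (q : ℝ) * f y) x * weakGradient m g x :=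
    ae_all_iff.2 fun q =>
      gcb_gamma_abs_le hS (f := fun y => φ (f y) - (q : ℝ) * f y)
        (gcb_locSob_comp_lip hS (gc_aux_lip_sub_mul hφ q) hf) hg
  have hD : ∀ᵐ x ∂m, ∀ q : ℚ, weakGradient m (fun y => φ (f y) - (q : ℝ) * f y) x
      = |deriv (fun t => φ t - (q : ℝ) * t) (f x)| * weakGradient m f x :=
    ae_all_iff.2 fun q => by
      have h := gcb_wg_comp_lip hS (gc_aux_lip_sub_mul hφ q) hf
      filter_upwards [h] with x hx
      exact hx
  filter_upwards [hA, hB, hC, hD, gcb_wg_eq_zero_on_null hS hf hZ] with x hA hB hC hD hN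
  by_cases hd : DifferentiableAt ℝ φ (f x)
  · refine gc_aux_eq_of_rat (c := weakGradient m f x * weakGradient m g x) fun q => ?_
    have h1 := hC q
    rw [hA q, hB q, hD q] at h1
    have h2 : deriv (fun t => φ t - (q : ℝ) * t) (f x) = deriv φ (f x) - q := by
      have h3 : HasDerivAt (fun t => φ t - (q : ℝ) * t) (deriv φ (f x) - (q : ℝ) * 1) (f x) :=
        hd.hasDerivAt.sub ((hasDerivAt_id (f x)).const_mul (q : ℝ))
      rw [h3.deriv, mul_one]
    rw [h2] at h1
    linarith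
  · have h0 : weakGradient m f x = 0 := hN hd
    have h1 := hC 0
    rw [hA 0, hB 0, hD 0, h0] at h1
    simp only [Rat.cast_zero, zero_mul, mul_zero, sub_zero] at h1
    rw [deriv_zero_of_not_differentiableAt hd, zero_mul]
    exact abs_eq_zero.1 (le_antisymm h1 (abs_nonneg _))

theorem gc_gamma_comp_lip_right (hS : Std m K N) {f g : X → ℝ} {φ : ℝ → ℝ} {L : ℝ≥0}
    (hφ : LipschitzWith L φ) (hf : LocalSobolev m f) (hg : LocalSobolev m g) :
    ∀ᵐ x ∂m, gamma m f (fun y => φ (g y)) x = deriv φ (g x) * gamma m f g x := by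
  rw [gcb_gamma_comm m f (fun y => φ (g y)), gcb_gamma_comm m f g]
  exact gc_gamma_comp_lip_left hS hφ hg hf

/-- key to the chain rules: if `|D(u - c f)| ≤ |d - c| |Df|` a.e. for every rational `c`, then `Γ(u,g) = d Γ(f,g)` a.e.
(bilinearity, Cauchy-Schwarz, density of the rationals). -/
theorem gc_aux_gamma_of_rat (hS : Std m K N) {u f g d : X → ℝ} (hu : LocalSobolev m u)
    (hf : LocalSobolev m f) (hg : LocalSobolev m g)
    (h : ∀ c : ℚ, ∀ᵐ x ∂m, weakGradient m (fun y => u y - (c : ℝ) * f y) x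
      ≤ |d x - (c : ℝ)| * weakGradient m f x) :
    ∀ᵐ x ∂m, gamma m u g x = d x * gamma m f g x := by
  have key : ∀ᵐ x ∂m, ∀ c : ℚ, |gamma m u g x - (c : ℝ) * gamma m f g x|
      ≤ |d x - (c : ℝ)| * (weakGradient m f x * weakGradient m g x) := by
    rw [ae_all_iff]
    intro c
    have hcf : LocalSobolev m (fun y => (c : ℝ) * f y) := WG.gc_ls_const_mul hS.finite c hf
    filter_upwards [gcb_gamma_sub_left hS hu hcf hg, gcb_gamma_const_mul_left hS (c : ℝ) hf hg,
      gcb_gamma_abs_le hS (WG.gc_ls_sub hS.finite hu hcf) hg, h c, WG.gc_wg_nonneg (m := m) g]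
      with x e1 e2 e3 e4 e5
    rw [e1, e2] at e3
    calc |gamma m u g x - (c : ℝ) * gamma m f g x|
        ≤ weakGradient m (fun y => u y - (c : ℝ) * f y) x * weakGradient m g x := e3
      _ ≤ (|d x - (c : ℝ)| * weakGradient m f x) * weakGradient m g x :=
          mul_le_mul_of_nonneg_right e4 e5
      _ = |d x - (c : ℝ)| * (weakGradient m f x * weakGradient m g x) := by ring
  filter_upwards [key] with x hx
  have h1 : |gamma m u g x - d x * gamma m f g x|
      ≤ |d x - d x| * (weakGradient m f x * weakGradient m g x) :=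
    (Rat.denseRange_cast (𝕜 := ℝ)).induction_on
      (p := fun c : ℝ => |gamma m u g x - c * gamma m f g x|
        ≤ |d x - c| * (weakGradient m f x * weakGradient m g x)) (d x)
      (isClosed_le (by fun_prop) (by fun_prop)) hx
  rw [sub_self, abs_zero, zero_mul] at h1
  exact sub_eq_zero.1 (abs_eq_zero.1 (le_antisymm h1 (abs_nonneg _)))

/-- chain rule for `φ` which is `C¹` only on an interval containing the (essential) range of `f`;
`LocalSobolev (φ ∘ f)` is `gc_ls_comp_on`. -/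
theorem gc_gamma_comp_on_left (hS : Std m K N) {f g : X → ℝ} {φ φ' : ℝ → ℝ} {a b : ℝ}
    (hf : LocalSobolev m f) (hg : LocalSobolev m g) (hr : ∀ᵐ x ∂m, f x ∈ Icc a b)
    (hφ : ∀ y ∈ Icc a b, HasDerivWithinAt φ (φ' y) (Icc a b) y) (hc : ContinuousOn φ' (Icc a b)) :
    ∀ᵐ x ∂m, gamma m (fun y => φ (f y)) g x = φ' (f x) * gamma m f g x := by
  refine gc_aux_gamma_of_rat hS (d := fun x => φ' (f x)) (WG.gc_ls_comp_on hS.finite hf hr hφ hc) hf hg
    fun c => ?_
  have hψ : ∀ y ∈ Icc a b, HasDerivWithinAt (fun y : ℝ => φ y - (c : ℝ) * y) (φ' y - (c : ℝ)) (Icc a b) y := by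
    intro y hy
    have h2 : HasDerivWithinAt (fun y : ℝ => (c : ℝ) * y) ((c : ℝ) * 1) (Icc a b) y :=
      (hasDerivWithinAt_id y _).const_mul (c : ℝ)
    have h3 : HasDerivWithinAt (fun y : ℝ => φ y - (c : ℝ) * y) (φ' y - (c : ℝ) * 1) (Icc a b) y :=
      (hφ y hy).sub h2
    rwa [mul_one] at h3
  have hc' : ContinuousOn (fun y => φ' y - (c : ℝ)) (Icc a b) := hc.sub continuousOn_const
  filter_upwards [WG.gc_wg_comp_on hS.finite hf hr hψ hc'] with x hx
  rw [hx]

theorem gc_gamma_comp_on_right (hS : Std m K N) {f g : X → ℝ} {φ φ' : ℝ → ℝ} {a b : ℝ}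
    (hf : LocalSobolev m f) (hg : LocalSobolev m g) (hr : ∀ᵐ x ∂m, g x ∈ Icc a b)
    (hφ : ∀ y ∈ Icc a b, HasDerivWithinAt φ (φ' y) (Icc a b) y) (hc : ContinuousOn φ' (Icc a b)) :
    ∀ᵐ x ∂m, gamma m f (fun y => φ (g y)) x = φ' (g x) * gamma m f g x := by
  filter_upwards [gc_gamma_comp_on_left hS hg hf hr hφ hc] with x hx
  rw [gcb_gamma_comm m f (fun y => φ (g y)), hx, gcb_gamma_comm m g f]

/-- local version, see `gc_ls_comp_loc`. -/
theorem gc_gamma_comp_loc_left (hS : Std m K N) {f g : X → ℝ} {φ : ℝ → ℝ} {U : Set ℝ}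
    (hU : IsOpen U) (hφ : ContDiffOn ℝ 1 φ U) (hf : LocalSobolev m f) (hg : LocalSobolev m g)
    (hr : ∀ o : X, ∀ R : ℝ, ∃ a b : ℝ, Icc a b ⊆ U ∧ ∀ᵐ x ∂m, x ∈ Metric.ball o R → f x ∈ Icc a b) :
    ∀ᵐ x ∂m, gamma m (fun y => φ (f y)) g x = deriv φ (f x) * gamma m f g x := by
  refine gcb_gamma_comp_on_left hS hU hφ hf (fun o R => ?_) hg
  obtain ⟨a, b, hab, h⟩ := hr o R
  exact ⟨Icc a b, isCompact_Icc, hab, h⟩

theorem gc_gamma_comp_loc_right (hS : Std m K N) {f g : X → ℝ} {φ : ℝ → ℝ} {U : Set ℝ}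
    (hU : IsOpen U) (hφ : ContDiffOn ℝ 1 φ U) (hf : LocalSobolev m f) (hg : LocalSobolev m g)
    (hr : ∀ o : X, ∀ R : ℝ, ∃ a b : ℝ, Icc a b ⊆ U ∧ ∀ᵐ x ∂m, x ∈ Metric.ball o R → g x ∈ Icc a b) :
    ∀ᵐ x ∂m, gamma m f (fun y => φ (g y)) x = deriv φ (g x) * gamma m f g x := by
  refine gcb_gamma_comp_on_right hS hU hφ hf hg (fun o R => ?_)
  obtain ⟨a, b, hab, h⟩ := hr o R
  exact ⟨Icc a b, isCompact_Icc, hab, h⟩

/-- positive part -/
theorem gc_gamma_posPart_left (hS : Std m K N) {f g : X → ℝ} (hf : LocalSobolev m f)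
    (hg : LocalSobolev m g) :
    ∀ᵐ x ∂m, gamma m (fun y => max (f y) 0) g x = Set.indicator {z | 0 < f z} (gamma m f g) x := by
  filter_upwards [gcb_gamma_posPart_left hS hf hg] with x hx
  by_cases h : 0 < f x
  · rw [Set.indicator_of_mem (show x ∈ {z | 0 < f z} from h)]
    exact hx.1 h
  · rw [Set.indicator_of_notMem (show x ∉ {z | 0 < f z} from h)]
    exact hx.2 (not_lt.1 h)

theorem gc_gamma_posPart_right (hS : Std m K N) {f g : X → ℝ} (hf : LocalSobolev m f)
    (hg : LocalSobolev m g) :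
    ∀ᵐ x ∂m, gamma m f (fun y => max (g y) 0) x = Set.indicator {z | 0 < g z} (gamma m f g) x := by
  rw [gcb_gamma_comm m f (fun y => max (g y) 0), gcb_gamma_comm m f g]
  filter_upwards [gcb_gamma_posPart_left hS hg hf] with x hx
  by_cases h : 0 < g x
  · rw [Set.indicator_of_mem (show x ∈ {z | 0 < g z} from h)]
    exact hx.1 h
  · rw [Set.indicator_of_notMem (show x ∉ {z | 0 < g z} from h)]
    exact hx.2 (not_lt.1 h)

/-! ### B6. Leibniz rule -/

/-- `LocalSobolev (f * g)` comes from `gc_ls_mul` or `gc_ls_mul_lipLoc`. -/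
theorem gc_gamma_mul_left (hS : Std m K N) {f g h : X → ℝ} (hf : LocalSobolev m f)
    (hg : LocalSobolev m g) (hfg : LocalSobolev m (fun x => f x * g x)) (hh : LocalSobolev m h) :
    ∀ᵐ x ∂m, gamma m (fun y => f y * g y) h x = f x * gamma m g h x + g x * gamma m f h x := by
  exact gcb_gamma_mul_left_gen hS hf hg hfg hh

theorem gc_gamma_mul_right (hS : Std m K N) {f g h : X → ℝ} (hf : LocalSobolev m f)
    (hg : LocalSobolev m g) (hfg : LocalSobolev m (fun x => f x * g x)) (hh : LocalSobolev m h) :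
    ∀ᵐ x ∂m, gamma m h (fun y => f y * g y) x = f x * gamma m h g x + g x * gamma m h f x := by
  rw [gcb_gamma_comm m h (fun y => f y * g y), gcb_gamma_comm m h g, gcb_gamma_comm m h f]
  exact gcb_gamma_mul_left_gen hS hf hg hfg hh

/-! ### B7. integrability -/

theorem gc_wg_sq_integrable {f : X → ℝ} (hf : Sobolev m f) :
    Integrable (fun x => (weakGradient m f x) ^ 2) m := by
  exact gcb_wg_sq_integrable hf

theorem gc_wg_sq_integrableOn (f : X → ℝ) (o : X) (R : ℝ) :
    IntegrableOn (fun x => (weakGradient m f x) ^ 2) (Metric.ball o R) m := by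
  have h := gcb_integrableOn_mul (gcb_wg_locL2 m f) (gcb_wg_locL2 m f) o R
  simpa [sq] using h

theorem gc_gamma_integrable (hS : Std m K N) {f g : X → ℝ} (hf : Sobolev m f)
    (hg : Sobolev m g) : Integrable (gamma m f g) m := by
  exact gcb_gamma_integrable hS hf hg

theorem gc_gamma_integrableOn (f g : X → ℝ) (o : X) (R : ℝ) :
    IntegrableOn (gamma m f g) (Metric.ball o R) m := by
  have h1 := gc_wg_sq_integrableOn (m := m) (fun y => f y + g y) o R
  have h2 := gc_wg_sq_integrableOn (m := m) (fun y => f y - g y) o R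
  exact (h1.sub h2).div_const 4

/-- an `IntegrableOn` function vanishing a.e. outside the ball is integrable. -/
theorem gc_aux_integrable_of_integrableOn {F : X → ℝ} {o : X} {R : ℝ}
    (h : IntegrableOn F (Metric.ball o R) m) (h0 : ∀ᵐ x ∂m, x ∉ Metric.ball o R → F x = 0) :
    Integrable F m := by
  have h1 : Integrable (Set.indicator (Metric.ball o R) F) m :=
    (integrable_indicator_iff Metric.isOpen_ball.measurableSet).2 h
  refine h1.congr ?_
  filter_upwards [h0] with x hx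
  by_cases hxb : x ∈ Metric.ball o R
  · rw [Set.indicator_of_mem hxb]
  · rw [Set.indicator_of_notMem hxb, hx hxb]

/-- one of the two functions vanishes a.e. outside a ball -/
theorem gc_gamma_integrable_of_bddSupp_left (hS : Std m K N) {f g : X → ℝ}
    (hf : LocalSobolev m f) (hg : LocalSobolev m g) (hs : gc_BddSuppAE m f) :
    Integrable (gamma m f g) m := by
  obtain ⟨o, R, h0⟩ := hs
  exact gc_aux_integrable_of_integrableOn (gc_gamma_integrableOn f g o R)
    (gcb_gamma_eq_zero_off_left hS hf hg h0)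

theorem gc_gamma_integrable_of_bddSupp_right (hS : Std m K N) {f g : X → ℝ}
    (hf : LocalSobolev m f) (hg : LocalSobolev m g) (hs : gc_BddSuppAE m g) :
    Integrable (gamma m f g) m := by
  obtain ⟨o, R, h0⟩ := hs
  exact gc_aux_integrable_of_integrableOn (gc_gamma_integrableOn f g o R)
    (gcb_gamma_eq_zero_off_right hS hf hg h0)

/-- bounded weight, Sobolev pair -/
theorem gc_mul_gamma_integrable (hS : Std m K N) {f g h : X → ℝ} {B : ℝ} (hf : Sobolev m f)
    (hg : Sobolev m g) (hh : AEStronglyMeasurable h m) (hb : AEBdd m h B) :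
    Integrable (fun x => h x * gamma m f g x) m := by
  exact gcb_gamma_mul_integrable hS hf hg hh hb

/-- locally bounded weight with bounded support, arbitrary pair -/
theorem gc_mul_gamma_integrable_of_bddSupp {f g h : X → ℝ}
    (hh : AEStronglyMeasurable h m) (hb : gc_LocBdd m h) (hs : gc_BddSuppAE m h) :
    Integrable (fun x => h x * gamma m f g x) m := by
  obtain ⟨o, R, h0⟩ := hs
  obtain ⟨B, hB⟩ := hb o R
  have hG : IntegrableOn (gamma m f g) (Metric.ball o R) m := gc_gamma_integrableOn f g o R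
  have h1 : IntegrableOn (fun x => h x * gamma m f g x) (Metric.ball o R) m := by
    refine Integrable.bdd_mul (c := B) hG hh.restrict ?_
    rw [ae_restrict_iff' Metric.isOpen_ball.measurableSet]
    filter_upwards [hB] with x hx hxb
    exact hx hxb
  refine gc_aux_integrable_of_integrableOn h1 ?_
  filter_upwards [h0] with x hx hxb
  rw [hx hxb, zero_mul]

/-- `Γ(f,g) ∈ L²` if `f` is Sobolev and `|Dg| ≤ L`. -/
theorem gc_gamma_memLp_two (hS : Std m K N) {f g : X → ℝ} {L : ℝ} (hf : Sobolev m f)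
    (hg : LocalSobolev m g) (hL : ∀ᵐ x ∂m, weakGradient m g x ≤ L) : MemLp (gamma m f g) 2 m := by
  refine (hf.2.2.const_mul L).mono' (gcb_gamma_aesm m f g) ?_
  filter_upwards [gcb_gamma_abs_le hS hf.2.1 hg, hL, gcb_wg_nonneg m f] with x hx hLx h0
  rw [Real.norm_eq_abs]
  calc |gamma m f g x| ≤ weakGradient m f x * weakGradient m g x := hx
    _ ≤ weakGradient m f x * L := mul_le_mul_of_nonneg_left hLx h0
    _ = L * weakGradient m f x := mul_comm _ _

/-- `L²` weight: `h Γ(f,g) ∈ L¹` if `h ∈ L²`, `f` Sobolev, `|Dg| ≤ L`. -/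
theorem gc_mul_gamma_integrable_of_memLp (hS : Std m K N) {f g h : X → ℝ} {L : ℝ}
    (hf : Sobolev m f) (hg : LocalSobolev m g) (hL : ∀ᵐ x ∂m, weakGradient m g x ≤ L)
    (hh : MemLp h 2 m) : Integrable (fun x => h x * gamma m f g x) m := by
  exact hh.integrable_mul (gc_gamma_memLp_two hS hf hg hL)

/-! ### B8. the Dirichlet form `form m f g = ∫ Γ(f,g)`, `energy m f = ∫ |Df|²` -/

theorem gc_energy_nonneg (f : X → ℝ) : 0 ≤ energy m f := by
  exact gcb_energy_nonneg m f

theorem gc_form_self (hfin : FiniteOnBoundedSets m) {f : X → ℝ} (hf : LocalSobolev m f) :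
    form m f f = energy m f := by
  exact integral_congr_ae (gc_gamma_self hfin hf)

theorem gc_form_comm (hfin : FiniteOnBoundedSets m) {f g : X → ℝ} (hf : LocalSobolev m f)
    (hg : LocalSobolev m g) : form m f g = form m g f := by
  exact gcb_form_comm m f g

theorem gc_form_add_left (hS : Std m K N) {f₁ f₂ g : X → ℝ} (h₁ : Sobolev m f₁)
    (h₂ : Sobolev m f₂) (hg : Sobolev m g) :
    form m (fun y => f₁ y + f₂ y) g = form m f₁ g + form m f₂ g := by
  exact gcb_form_add_left hS h₁ h₂ hg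

theorem gc_form_sub_left (hS : Std m K N) {f₁ f₂ g : X → ℝ} (h₁ : Sobolev m f₁)
    (h₂ : Sobolev m f₂) (hg : Sobolev m g) :
    form m (fun y => f₁ y - f₂ y) g = form m f₁ g - form m f₂ g := by
  exact gcb_form_sub_left hS h₁ h₂ hg

theorem gc_form_const_mul_left (hS : Std m K N) (c : ℝ) {f g : X → ℝ} (hf : Sobolev m f)
    (hg : Sobolev m g) : form m (fun y => c * f y) g = c * form m f g := by
  exact gcb_form_const_mul_left hS c hf.2.1 hg.2.1

theorem gc_form_add_right (hS : Std m K N) {f g₁ g₂ : X → ℝ} (hf : Sobolev m f)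
    (h₁ : Sobolev m g₁) (h₂ : Sobolev m g₂) :
    form m f (fun y => g₁ y + g₂ y) = form m f g₁ + form m f g₂ := by
  exact gcb_form_add_right hS hf h₁ h₂

theorem gc_form_sub_right (hS : Std m K N) {f g₁ g₂ : X → ℝ} (hf : Sobolev m f)
    (h₁ : Sobolev m g₁) (h₂ : Sobolev m g₂) :
    form m f (fun y => g₁ y - g₂ y) = form m f g₁ - form m f g₂ := by
  exact gcb_form_sub_right hS hf h₁ h₂

theorem gc_form_const_mul_right (hS : Std m K N) (c : ℝ) {f g : X → ℝ} (hf : Sobolev m f)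
    (hg : Sobolev m g) : form m f (fun y => c * g y) = c * form m f g := by
  exact gcb_form_const_mul_right hS c hf.2.1 hg.2.1

theorem gc_form_abs_le (hS : Std m K N) {f g : X → ℝ} (hf : Sobolev m f) (hg : Sobolev m g) :
    |form m f g| ≤ Real.sqrt (energy m f) * Real.sqrt (energy m g) := by
  exact gcb_form_abs_le hS hf hg

/-- weighted Cauchy-Schwarz -/
theorem gc_int_mul_gamma_abs_le (hS : Std m K N) {f g h : X → ℝ} {B : ℝ} (hf : Sobolev m f)
    (hg : Sobolev m g) (hh : AEStronglyMeasurable h m) (hb : AEBdd m h B)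
    (h0 : ∀ᵐ x ∂m, 0 ≤ h x) :
    |∫ x, h x * gamma m f g x ∂m| ≤ Real.sqrt (∫ x, h x * (weakGradient m f x) ^ 2 ∂m)
      * Real.sqrt (∫ x, h x * (weakGradient m g x) ^ 2 ∂m) := by
  have h1 : Integrable (fun x => h x * (weakGradient m f x) ^ 2) m :=
    Integrable.bdd_mul (c := B) (gcb_wg_sq_integrable hf) hh hb
  have h2 : Integrable (fun x => h x * (weakGradient m g x) ^ 2) m :=
    Integrable.bdd_mul (c := B) (gcb_wg_sq_integrable hg) hh hb
  exact gcb_int_gamma_abs_le hS hf.2.1 hg.2.1 h0 h1 h2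

theorem gc_energy_add (hS : Std m K N) {f g : X → ℝ} (hf : Sobolev m f) (hg : Sobolev m g) :
    energy m (fun y => f y + g y) = energy m f + 2 * form m f g + energy m g := by
  exact gcb_energy_add hS hf hg

theorem gc_energy_sub (hS : Std m K N) {f g : X → ℝ} (hf : Sobolev m f) (hg : Sobolev m g) :
    energy m (fun y => f y - g y) = energy m f - 2 * form m f g + energy m g := by
  exact gcb_energy_sub hS hf hg

theorem gc_energy_const_mul (hfin : FiniteOnBoundedSets m) (c : ℝ) {f : X → ℝ}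
    (hf : LocalSobolev m f) : energy m (fun y => c * f y) = c ^ 2 * energy m f := by
  unfold energy
  rw [← integral_const_mul]
  refine integral_congr_ae ?_
  filter_upwards [Claimed.Agent.R210.GC.WG.gc_wg_const_mul hfin c hf] with x hx
  rw [hx, mul_pow, sq_abs]

end Claimed.Agent.R210.GC.Gam
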