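/-
Row 210 (S0432), layer GC, interface part C: bridge to the Cheeger energy / Hilbert space layer,
closure, weak continuity, density, strong convergence.
Architect: helper277.  Consumers: import `Claimed.Agent.R210.GC.Ifc`.
-/
import Claimed.Agent.R210.GC.Gam
import Claimed.Agent.R210.GC.ConvAux

set_option autoImplicit false

open Claims.C0366 Claims.C0366.WeakHessian
open Set Filter MeasureTheory
open scoped ENNReal NNReal Topology

namespace Claimed.Agent.R210.GC.Conv

open Claimed.Agent.R210.Defs Claimed.Agent.R210.Defs2 Claimed.Agent.R210.GC.Defs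
open Claimed.Agent.R210.HS.Defs

variable {X : Type*} [MetricSpace X] [MeasurableSpace X] [BorelSpace X]
  [CompleteSpace X] [TopologicalSpace.SeparableSpace X] [ProperSpace X]
  {m : Measure X} {K N : ℝ}

/-! ### C1. closure and lower semicontinuity -/

/-- `f_i → f` in `L²`, energies eventually `≤ C` ⟹ `f` Sobolev with energy `≤ C`. -/
theorem gc_sob_closure (hS : Std m K N) {ι : Type*} {l : Filter ι} [l.NeBot]
    {fs : ι → X → ℝ} {f : X → ℝ} {C : ℝ} (hfs : ∀ᶠ i in l, Sobolev m (fs i))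
    (hlim : gc_L2Lim m l fs f) (hf : MemLp f 2 m) (hC : ∀ᶠ i in l, energy m (fs i) ≤ C) :
    Sobolev m f ∧ energy m f ≤ C := by
  have hm : ∀ᶠ i in l, MemLp (fs i) 2 m := hfs.mono fun i hi => hi.1
  have ht := (Bridge.gc_lp_tendsto_iff hm hf).1 hlim
  have hb : ∀ᶠ i in l, ChL2 m (gc_lp m (fs i)) ≤ ENNReal.ofReal (C / 2) := by
    filter_upwards [hfs, hC] with i h1 h2
    rw [Bridge.gc_chL2_lp_eq hS h1]
    exact ENNReal.ofReal_le_ofReal (by linarith)
  have hle := HS.Ifc.hs_lsc_le (Bridge.gc_qform hS) ht hb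
  have hsob : Sobolev m f :=
    (Bridge.gc_chL2_lp_lt_top_iff hS hf).1 (hle.trans_lt ENNReal.ofReal_lt_top)
  refine ⟨hsob, ?_⟩
  obtain ⟨i, hi⟩ := hC.exists
  have hC0 : 0 ≤ C := (Gam.gc_energy_nonneg (m := m) (fs i)).trans hi
  rw [Bridge.gc_chL2_lp_eq hS hsob, ENNReal.ofReal_le_ofReal_iff (by linarith)] at hle
  linarith

/-! ### C2. weak continuity -/

open Claimed.Agent.R210.GC.Bridge Claimed.Agent.R210.GC.Gam Claimed.Agent.R210.GC.WG in
/-- `|∫ h Γ(u,v)| ≤ |B| √E(v) √E(u)`. -/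
theorem gc_aux_int_abs_le (hS : Std m K N) {u v h : X → ℝ} {B : ℝ} (hu : Sobolev m u)
    (hv : Sobolev m v) (hb : AEBdd m h B) :
    |∫ x, h x * gamma m u v x ∂m| ≤
      |B| * Real.sqrt (energy m v) * Real.sqrt (energy m u) := by
  have hint : Integrable (fun x => |B| * (weakGradient m u x * weakGradient m v x)) m :=
    (MemLp.integrable_mul hu.2.2 hv.2.2).const_mul _
  have h1 : ‖∫ x, h x * gamma m u v x ∂m‖ ≤
      ∫ x, |B| * (weakGradient m u x * weakGradient m v x) ∂m := by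
    refine norm_integral_le_of_norm_le hint ?_
    filter_upwards [hb, gc_gamma_abs_le hS hu.2.1 hv.2.1] with x hx1 hx2
    rw [Real.norm_eq_abs, abs_mul]
    exact mul_le_mul (hx1.trans (le_abs_self B)) hx2 (abs_nonneg _) (abs_nonneg _)
  rw [Real.norm_eq_abs, integral_const_mul] at h1
  have h2 : ∫ x, weakGradient m u x * weakGradient m v x ∂m ≤
      Real.sqrt (energy m u) * Real.sqrt (energy m v) := by
    rw [← gc_lp_inner hu.2.2 hv.2.2]
    have e1 : ‖gc_lp m (weakGradient m u)‖ = Real.sqrt (energy m u) := by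
      rw [energy, ← gc_lp_norm_sq hu.2.2, Real.sqrt_sq (norm_nonneg _)]
    have e2 : ‖gc_lp m (weakGradient m v)‖ = Real.sqrt (energy m v) := by
      rw [energy, ← gc_lp_norm_sq hv.2.2, Real.sqrt_sq (norm_nonneg _)]
    rw [← e1, ← e2]
    exact real_inner_le_norm _ _
  calc |∫ x, h x * gamma m u v x ∂m|
      ≤ |B| * ∫ x, weakGradient m u x * weakGradient m v x ∂m := h1
    _ ≤ |B| * (Real.sqrt (energy m u) * Real.sqrt (energy m v)) :=
        mul_le_mul_of_nonneg_left h2 (abs_nonneg _)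
    _ = |B| * Real.sqrt (energy m v) * Real.sqrt (energy m u) := by ring

open Claimed.Agent.R210.GC.Bridge Claimed.Agent.R210.GC.Gam Claimed.Agent.R210.GC.ConvAux in
/-- `f_i → f` in `L²` with bounded energies ⟹ `∫ h Γ(f_i,v) → ∫ h Γ(f,v)`
(`v` Sobolev, `h` bounded measurable). -/
theorem gc_weak_cont (hS : Std m K N) {ι : Type*} {l : Filter ι} [l.NeBot]
    {fs : ι → X → ℝ} {f v h : X → ℝ} {B C : ℝ} (hfs : ∀ᶠ i in l, Sobolev m (fs i))
    (hlim : gc_L2Lim m l fs f) (hf : MemLp f 2 m) (hC : ∀ᶠ i in l, energy m (fs i) ≤ C)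
    (hv : Sobolev m v) (hh : AEStronglyMeasurable h m) (hb : AEBdd m h B) :
    Tendsto (fun i => ∫ x, h x * gamma m (fs i) v x ∂m) l (𝓝 (∫ x, h x * gamma m f v x ∂m)) := by
  set ℓ : Lp ℝ 2 m → ℝ := fun u => ∫ x, h x * gamma m (u : X → ℝ) v x ∂m with hℓ
  have hadd : ∀ u w : Lp ℝ 2 m, ChL2 m u < ∞ → ChL2 m w < ∞ → ℓ (u + w) = ℓ u + ℓ w := by
    intro u w hu hw
    have hu' := (gc_chL2_lt_top_iff hS u).1 hu
    have hw' := (gc_chL2_lt_top_iff hS w).1 hw
    have e : gamma m ((u + w : Lp ℝ 2 m) : X → ℝ) v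
        = gamma m (fun x => (u : X → ℝ) x + (w : X → ℝ) x) v :=
      gc_gamma_congr (Lp.coeFn_add u w) (ae_eq_refl v)
    simp only [hℓ]
    rw [e, ← integral_add (gc_mul_gamma_integrable hS hu' hv hh hb)
      (gc_mul_gamma_integrable hS hw' hv hh hb)]
    refine integral_congr_ae ?_
    filter_upwards [gc_gamma_add_left hS hu'.2.1 hw'.2.1 hv.2.1] with x hx
    rw [hx]; ring
  have hsmul : ∀ (c : ℝ) (u : Lp ℝ 2 m), ChL2 m u < ∞ → ℓ (c • u) = c * ℓ u := by
    intro c u hu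
    have hu' := (gc_chL2_lt_top_iff hS u).1 hu
    have e : gamma m ((c • u : Lp ℝ 2 m) : X → ℝ) v
        = gamma m (fun x => c * (u : X → ℝ) x) v :=
      gc_gamma_congr (Lp.coeFn_smul c u) (ae_eq_refl v)
    simp only [hℓ]
    rw [e, ← integral_const_mul]
    refine integral_congr_ae ?_
    filter_upwards [gc_gamma_const_mul_left hS c hu'.2.1 hv.2.1] with x hx
    rw [hx]; ring
  have hbd : ∀ u : Lp ℝ 2 m, ChL2 m u < ∞ →
      |ℓ u| ≤ (|B| * Real.sqrt (energy m v)) * Real.sqrt (‖u‖ ^ 2 + bil (ChL2 m) u u) := by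
    intro u hu
    have hu' := (gc_chL2_lt_top_iff hS u).1 hu
    rw [gc_bil_eq hS hu hu, gc_form_self hS.finite hu'.2.1]
    refine (gc_aux_int_abs_le hS hu' hv hb).trans ?_
    refine mul_le_mul_of_nonneg_left (Real.sqrt_le_sqrt ?_)
      (mul_nonneg (abs_nonneg _) (Real.sqrt_nonneg _))
    nlinarith [sq_nonneg ‖u‖]
  have hfs2 : ∀ᶠ i in l, MemLp (fs i) 2 m := hfs.mono fun i hi => hi.1
  have hconv := (gc_lp_tendsto_iff hfs2 hf).1 hlim
  have hbound : ∀ᶠ i in l, ChL2 m (gc_lp m (fs i)) ≤ ENNReal.ofReal (C / 2) := by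
    filter_upwards [hfs, hC] with i h1 h2
    rw [gc_chL2_lp_eq hS h1]
    exact ENNReal.ofReal_le_ofReal (by linarith)
  have key := gc_hs_weak_cont (gc_qform hS) ℓ hadd hsmul hbd ENNReal.ofReal_lt_top hconv hbound
  have htr : ∀ g : X → ℝ, MemLp g 2 m → ℓ (gc_lp m g) = ∫ x, h x * gamma m g v x ∂m := by
    intro g hg
    simp only [hℓ]
    rw [gc_gamma_congr (gc_lp_coe hg) (ae_eq_refl v)]
  rw [htr f hf] at key
  refine key.congr' ?_
  filter_upwards [hfs2] with i hi
  exact htr _ hi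

open Claimed.Agent.R210.GC.WG Claimed.Agent.R210.GC.Gam in
/-- the standard cut-off -/
theorem gc_aux_cutoff (o : X) (R : ℝ) :
    LipC (fun x : X => max 0 (min 1 (R + 1 - dist x o))) := by
  refine gc_lipC_of_lipLoc_bddSupp (gc_lipLoc_of_lip ?_) ⟨o, R + 1, fun x hx => ?_⟩
  · exact ⟨_, (((LipschitzWith.const (R + 1)).sub (LipschitzWith.dist_left o)).const_min 1).const_max 0⟩
  · have h1 : R + 1 ≤ dist x o := by
      simpa [Metric.mem_ball, not_lt] using hx
    have h2 : min 1 (R + 1 - dist x o) ≤ 0 := (min_le_right _ _).trans (by linarith)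
    exact max_eq_left h2

open Claimed.Agent.R210.GC.WG Claimed.Agent.R210.GC.Gam in
/-- the same with `v` only `LocalSobolev` and `h` bounded with bounded support. -/
theorem gc_weak_cont_loc (hS : Std m K N) {ι : Type*} {l : Filter ι} [l.NeBot]
    {fs : ι → X → ℝ} {f v h : X → ℝ} {B C : ℝ} (hfs : ∀ᶠ i in l, Sobolev m (fs i))
    (hlim : gc_L2Lim m l fs f) (hf : MemLp f 2 m) (hC : ∀ᶠ i in l, energy m (fs i) ≤ C)
    (hv : LocalSobolev m v) (hh : AEStronglyMeasurable h m) (hb : AEBdd m h B)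
    (hs : gc_BddSuppAE m h) :
    Tendsto (fun i => ∫ x, h x * gamma m (fs i) v x ∂m) l (𝓝 (∫ x, h x * gamma m f v x ∂m)) := by
  obtain ⟨o, R, hoR⟩ := hs
  have hchi := gc_aux_cutoff o R
  set chi : X → ℝ := fun x : X => max 0 (min 1 (R + 1 - dist x o)) with hchidef
  have hv' : Sobolev m (fun x => v x * chi x) := gc_sob_mul_lipC hS.finite hv hchi
  have hfS : Sobolev m f := (gc_sob_closure hS hfs hlim hf hC).1
  have key : ∀ g : X → ℝ, LocalSobolev m g →
      ∫ x, h x * gamma m g v x ∂m = ∫ x, h x * gamma m g (fun x => v x * chi x) x ∂m := by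
    intro g hg
    refine integral_congr_ae ?_
    filter_upwards [hoR, gc_gamma_eq_on_right hS hg hv (gc_ls_of_sob hv')] with x hx1 hx2
    by_cases hx : x ∈ Metric.ball o R
    · have h1 : chi x = 1 := by
        have : dist x o < R := hx
        have h2 : min 1 (R + 1 - dist x o) = 1 := min_eq_left (by linarith)
        simp only [hchidef, h2]
        norm_num
      rw [hx2 (by rw [h1, mul_one])]
    · rw [hx1 hx, zero_mul, zero_mul]
  rw [key f (gc_ls_of_sob hfS)]
  refine (gc_weak_cont hS hfs hlim hf hC hv' hh hb).congr' ?_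
  filter_upwards [hfs] with i hi
  exact (key (fs i) (gc_ls_of_sob hi)).symm

omit [MetricSpace X] [BorelSpace X] [CompleteSpace X] [TopologicalSpace.SeparableSpace X] [ProperSpace X] in
theorem gc_aux_int_sq_le {u : X → ℝ} (hu : MemLp u 2 m) {δ : ℝ} (hδ : 0 ≤ δ)
    (h : eLpNorm u 2 m ≤ ENNReal.ofReal δ) : ∫ x, u x ^ 2 ∂m ≤ δ ^ 2 := by
  rw [hu.eLpNorm_eq_integral_rpow_norm two_ne_zero ENNReal.ofNat_ne_top] at h
  have h1 := (ENNReal.ofReal_le_ofReal_iff hδ).1 h
  have h2 : (∫ x, ‖u x‖ ^ (2 : ℝ≥0∞).toReal ∂m) = ∫ x, u x ^ 2 ∂m := by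
    refine integral_congr_ae (Eventually.of_forall fun x => ?_)
    simp
  rw [h2] at h1
  have hI : 0 ≤ ∫ x, u x ^ 2 ∂m := integral_nonneg fun x => sq_nonneg _
  have h3 : (∫ x, u x ^ 2 ∂m) = ((∫ x, u x ^ 2 ∂m) ^ (2 : ℝ≥0∞).toReal⁻¹) ^ 2 := by
    rw [← Real.rpow_natCast, ← Real.rpow_mul hI]
    simp
  rw [h3]
  exact pow_le_pow_left₀ (Real.rpow_nonneg hI _) h1 2

open Claimed.Agent.R210.GC.WG Claimed.Agent.R210.GC.Gam in
theorem gc_aux_young (hS : Std m K N) {g v u : X → ℝ} {L s : ℝ} (hg : Sobolev m g)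
    (hv : LocalSobolev m v) (hL : ∀ᵐ x ∂m, weakGradient m v x ≤ L) (hu : MemLp u 2 m)
    (hs : 0 < s) :
    |∫ x, u x * gamma m g v x ∂m| ≤ |L| / 2 * ((∫ x, u x ^ 2 ∂m) / s + s * energy m g) := by
  have i1 : Integrable (fun x => u x ^ 2) m := hu.integrable_sq
  have i2 : Integrable (fun x => (weakGradient m g x) ^ 2) m := gc_wg_sq_integrable hg
  have i3 : Integrable (fun x => |L| / 2 * (u x ^ 2 / s + s * (weakGradient m g x) ^ 2)) m :=
    ((i1.div_const s).add (i2.const_mul s)).const_mul _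
  have h1 : ‖∫ x, u x * gamma m g v x ∂m‖
      ≤ ∫ x, |L| / 2 * (u x ^ 2 / s + s * (weakGradient m g x) ^ 2) ∂m := by
    refine norm_integral_le_of_norm_le i3 ?_
    filter_upwards [gc_gamma_abs_le hS (gc_ls_of_sob hg) hv, hL, gc_wg_nonneg (m := m) g,
      gc_wg_nonneg (m := m) v] with x hx1 hx2 hx3 hx4
    rw [Real.norm_eq_abs, abs_mul]
    set w := weakGradient m g x
    have h2 : |gamma m g v x| ≤ w * |L| :=
      hx1.trans (mul_le_mul_of_nonneg_left (hx2.trans (le_abs_self L)) hx3)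
    have h3 : |u x| * |gamma m g v x| ≤ |u x| * (w * |L|) :=
      mul_le_mul_of_nonneg_left h2 (abs_nonneg _)
    have h4 : |u x| * w ≤ (u x ^ 2 / s + s * w ^ 2) / 2 := by
      have h5 : 0 ≤ (|u x| - s * w) ^ 2 := sq_nonneg _
      have h6 : u x ^ 2 / s + s * w ^ 2 - 2 * (|u x| * w) = (|u x| - s * w) ^ 2 / s := by
        field_simp
        rw [← sq_abs (u x)]
        ring
      have h7 : 0 ≤ (|u x| - s * w) ^ 2 / s := div_nonneg h5 hs.le
      linarith
    calc |u x| * |gamma m g v x| ≤ |u x| * (w * |L|) := h3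
      _ = |L| * (|u x| * w) := by ring
      _ ≤ |L| * ((u x ^ 2 / s + s * w ^ 2) / 2) := mul_le_mul_of_nonneg_left h4 (abs_nonneg _)
      _ = |L| / 2 * (u x ^ 2 / s + s * w ^ 2) := by ring
  rw [Real.norm_eq_abs] at h1
  refine h1.trans (le_of_eq ?_)
  rw [integral_const_mul, integral_add (i1.div_const s) (i2.const_mul s), integral_div,
    integral_const_mul]
  rfl

theorem gc_aux_small (hS : Std m K N) {v : X → ℝ} {L C ε : ℝ}
    (hv : LocalSobolev m v) (hL : ∀ᵐ x ∂m, weakGradient m v x ≤ L) (hε : 0 < ε) :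
    ∃ δ : ℝ, 0 < δ ∧ ∀ g u : X → ℝ, Sobolev m g → energy m g ≤ C → MemLp u 2 m →
      eLpNorm u 2 m ≤ ENNReal.ofReal δ → |∫ x, u x * gamma m g v x ∂m| ≤ ε := by
  set A : ℝ := |L| / 2 with hA
  have hA0 : 0 ≤ A := by positivity
  set C' : ℝ := max C 0 with hC'
  have hC0 : 0 ≤ C' := le_max_right _ _
  set s : ℝ := ε / (2 * (A * C' + 1)) with hs
  have hs0 : 0 < s := by positivity
  set η : ℝ := s * ε / (2 * (A + 1)) with hη
  have hη0 : 0 < η := by positivity
  refine ⟨min 1 η, lt_min one_pos hη0, fun g u hg hgC hu hle => ?_⟩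
  have h1 := gc_aux_young hS hg hv hL hu hs0
  have h2 : ∫ x, u x ^ 2 ∂m ≤ (min 1 η) ^ 2 :=
    gc_aux_int_sq_le hu (lt_min one_pos hη0).le hle
  have h3 : (min 1 η) ^ 2 ≤ η := by
    have h4 : min 1 η ≤ 1 := min_le_left _ _
    have h5 : min 1 η ≤ η := min_le_right _ _
    have h6 : 0 < min 1 η := lt_min one_pos hη0
    nlinarith
  have h7 : (∫ x, u x ^ 2 ∂m) / s ≤ ε / (2 * (A + 1)) := by
    rw [div_le_iff₀ hs0]
    calc ∫ x, u x ^ 2 ∂m ≤ η := h2.trans h3
      _ = ε / (2 * (A + 1)) * s := by rw [hη]; ring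
  have h8 : s * energy m g ≤ s * C' :=
    mul_le_mul_of_nonneg_left (hgC.trans (le_max_left _ _)) hs0.le
  have h9 : A * (ε / (2 * (A + 1))) ≤ ε / 2 := by
    rw [mul_div_assoc', div_le_div_iff₀ (by positivity) (by positivity)]
    nlinarith
  have h10 : A * (s * C') ≤ ε / 2 := by
    rw [hs]
    rw [show A * (ε / (2 * (A * C' + 1)) * C') = (A * C' * ε) / (2 * (A * C' + 1)) by ring]
    rw [div_le_div_iff₀ (by positivity) (by positivity)]
    have : 0 ≤ A * C' := mul_nonneg hA0 hC0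
    nlinarith
  calc |∫ x, u x * gamma m g v x ∂m| ≤ A * ((∫ x, u x ^ 2 ∂m) / s + s * energy m g) := h1
    _ ≤ A * (ε / (2 * (A + 1)) + s * C') := mul_le_mul_of_nonneg_left (add_le_add h7 h8) hA0
    _ = A * (ε / (2 * (A + 1))) + A * (s * C') := by ring
    _ ≤ ε := by linarith

open Claimed.Agent.R210.GC.WG Claimed.Agent.R210.GC.Gam in
/-- the same with `|Dv| ≤ L` and an `L²` weight. -/
theorem gc_weak_cont_lip (hS : Std m K N) {ι : Type*} {l : Filter ι} [l.NeBot]
    {fs : ι → X → ℝ} {f v h : X → ℝ} {L C : ℝ} (hfs : ∀ᶠ i in l, Sobolev m (fs i))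
    (hlim : gc_L2Lim m l fs f) (hf : MemLp f 2 m) (hC : ∀ᶠ i in l, energy m (fs i) ≤ C)
    (hv : LocalSobolev m v) (hL : ∀ᵐ x ∂m, weakGradient m v x ≤ L) (hh : MemLp h 2 m) :
    Tendsto (fun i => ∫ x, h x * gamma m (fs i) v x ∂m) l (𝓝 (∫ x, h x * gamma m f v x ∂m)) := by
  rcases isEmpty_or_nonempty X with hX | ⟨⟨o⟩⟩
  · simp only [Measure.eq_zero_of_isEmpty m, integral_zero_measure]
    exact tendsto_const_nhds
  obtain ⟨hfS, hfC⟩ := gc_sob_closure hS hfs hlim hf hC
  have : IsLocallyFiniteMeasure m :=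
    ⟨fun x => ⟨Metric.ball x 1, Metric.ball_mem_nhds x one_pos, hS.finite _ Metric.isBounded_ball⟩⟩
  rw [Metric.tendsto_nhds]
  intro ε hε
  obtain ⟨δ, hδ, hsmall⟩ := gc_aux_small (C := C) hS hv hL (show 0 < ε / 3 by positivity)
  obtain ⟨g0, hg0c, hg0le, hg0cont, hg0L⟩ :=
    hh.exists_hasCompactSupport_eLpNorm_sub_le (ENNReal.ofNat_ne_top)
      (ε := ENNReal.ofReal δ) (by simpa using hδ)
  have hd : MemLp (fun x => h x - g0 x) 2 m := hh.sub hg0L
  have hdle : eLpNorm (fun x => h x - g0 x) 2 m ≤ ENNReal.ofReal δ := hg0le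
  -- `g0` is bounded with bounded support
  obtain ⟨B, hB⟩ : ∃ B : ℝ, ∀ x, ‖g0 x‖ ≤ B := hg0c.exists_bound_of_continuous hg0cont
  have hg0b : AEBdd m g0 B := Eventually.of_forall fun x => by simpa using hB x
  have hg0s : gc_BddSuppAE m g0 := by
    obtain ⟨R, hR⟩ := hg0c.isCompact.isBounded.subset_ball o
    exact ⟨o, R, Eventually.of_forall fun x hx => by
      by_contra hne
      exact hx (hR (subset_tsupport _ hne))⟩
  have hT := gc_weak_cont_loc hS hfs hlim hf hC hv hg0cont.aestronglyMeasurable hg0b hg0s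
  rw [Metric.tendsto_nhds] at hT
  have split : ∀ g : X → ℝ, Sobolev m g → ∫ x, h x * gamma m g v x ∂m
      = ∫ x, (h x - g0 x) * gamma m g v x ∂m + ∫ x, g0 x * gamma m g v x ∂m := by
    intro g hg
    rw [← integral_add (gc_mul_gamma_integrable_of_memLp hS hg hv hL hd)
      (gc_mul_gamma_integrable_of_memLp hS hg hv hL hg0L)]
    refine integral_congr_ae (Eventually.of_forall fun x => ?_)
    show h x * gamma m g v x = (h x - g0 x) * gamma m g v x + g0 x * gamma m g v x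
    ring
  filter_upwards [hfs, hC, hT (ε / 3) (by positivity)] with i hi1 hi2 hi3
  rw [split _ hi1, split _ hfS, Real.dist_eq]
  rw [Real.dist_eq] at hi3
  have e1 := hsmall (fs i) _ hi1 hi2 hd hdle
  have e2 := hsmall f _ hfS hfC hd hdle
  rw [abs_le] at e1 e2
  rw [abs_lt] at hi3 ⊢
  constructor <;> linarith [e1.1, e1.2, e2.1, e2.2, hi3.1, hi3.2]

open Claimed.Agent.R210.GC.WG Claimed.Agent.R210.GC.Gam in
/-- uniformly Lipschitz functions with supports in one ball, converging uniformly to `0`. -/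
theorem gc_weak_cont_unifLip (hS : Std m K N) {ι : Type*} {l : Filter ι} [l.NeBot]
    {fs : ι → X → ℝ} {v h : X → ℝ} {L : ℝ≥0} {o : X} {R : ℝ}
    (hL : ∀ᶠ i in l, LipschitzWith L (fs i))
    (hsupp : ∀ᶠ i in l, ∀ x, x ∉ Metric.ball o R → fs i x = 0)
    (hunif : ∀ ε > 0, ∀ᶠ i in l, ∀ x, |fs i x| ≤ ε)
    (hv : LocalSobolev m v) (hh : AEStronglyMeasurable h m) (hb : gc_LocBdd m h) :
    Tendsto (fun i => ∫ x, h x * gamma m (fs i) v x ∂m) l (𝓝 0) := by
  have hfin := hS.finite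
  have hball : m (Metric.ball o R) < ∞ := hfin _ Metric.isBounded_ball
  have hmb : MeasurableSet (Metric.ball o R) := measurableSet_ball
  -- the weight cut to the ball
  set h' : X → ℝ := (Metric.ball o R).indicator h with hh'
  have hh'm : AEStronglyMeasurable h' m := hh.indicator hmb
  obtain ⟨B, hB⟩ := hb o R
  have hh'b : AEBdd m h' |B| := by
    filter_upwards [hB] with x hx
    by_cases hxb : x ∈ Metric.ball o R
    · rw [hh', indicator_of_mem hxb]
      exact (hx hxb).trans (le_abs_self B)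
    · rw [hh', indicator_of_notMem hxb, abs_zero]
      exact abs_nonneg B
  have hh's : gc_BddSuppAE m h' :=
    ⟨o, R, Eventually.of_forall fun x hx => indicator_of_notMem hx h⟩
  -- the functions are Sobolev
  have hls : ∀ᶠ i in l, LocalSobolev m (fs i) := by
    filter_upwards [hL] with i hi
    exact gc_ls_of_lipLoc hfin (gc_lipLoc_of_lip ⟨L, hi⟩)
  have hsob : ∀ᶠ i in l, Sobolev m (fs i) := by
    filter_upwards [hls, hsupp] with i hi1 hi2
    exact gc_sob_of_ls_bddSupp hfin hi1 ⟨o, R, Eventually.of_forall hi2⟩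
  -- energy bound
  have hen : ∀ᶠ i in l, energy m (fs i) ≤ (L : ℝ) ^ 2 * (m (Metric.ball o R)).toReal := by
    filter_upwards [hL, hls, hsupp] with i hi1 hi2 hi3
    have hint : Integrable ((Metric.ball o R).indicator fun _ : X => (L : ℝ) ^ 2) m :=
      (integrable_indicator_iff hmb).2 (integrableOn_const hball.ne)
    have hle : ∀ᵐ x ∂m, (weakGradient m (fs i) x) ^ 2
        ≤ (Metric.ball o R).indicator (fun _ : X => (L : ℝ) ^ 2) x := by
      filter_upwards [gc_wg_le_lip hfin hi1, gc_wg_nonneg (m := m) (fs i),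
        gc_wg_zero_on_level hfin hi2 0] with x hx1 hx2 hx3
      by_cases hxb : x ∈ Metric.ball o R
      · rw [indicator_of_mem hxb]
        exact pow_le_pow_left₀ hx2 hx1 2
      · rw [indicator_of_notMem hxb, hx3 (hi3 x hxb)]
        norm_num
    have := integral_mono_of_nonneg (Eventually.of_forall fun x => sq_nonneg _) hint hle
    refine this.trans (le_of_eq ?_)
    rw [integral_indicator hmb, setIntegral_const]
    simp [Measure.real, mul_comm]
  -- convergence to `0` in `L²`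
  have hlim : gc_L2Lim m l fs (fun _ => 0) := by
    unfold gc_L2Lim
    rw [ENNReal.tendsto_nhds_zero]
    intro ε' hε'
    set M : ℝ≥0∞ := (m (Metric.ball o R)) ^ (2 : ℝ≥0∞).toReal⁻¹ with hM
    have hMtop : M ≠ ∞ := ENNReal.rpow_ne_top_of_nonneg (by simp) hball.ne
    have hφ : Tendsto (fun t : ℝ => M * ENNReal.ofReal t) (𝓝 0) (𝓝 (M * ENNReal.ofReal 0)) :=
      ENNReal.Tendsto.const_mul (ENNReal.continuous_ofReal.tendsto 0) (Or.inr hMtop)
    rw [ENNReal.ofReal_zero, mul_zero] at hφ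
    have hev := hφ.eventually (ge_mem_nhds hε')
    obtain ⟨r, hr, hrr⟩ := Metric.eventually_nhds_iff.1 hev
    have hr2 : M * ENNReal.ofReal (r / 2) ≤ ε' := hrr (by
      rw [Real.dist_eq, sub_zero, abs_of_pos (by positivity)]
      linarith)
    filter_upwards [hunif (r / 2) (by positivity), hsupp] with i hi1 hi2
    have heq : (fun x => fs i x - 0) = (Metric.ball o R).indicator (fs i) := by
      funext x
      by_cases hxb : x ∈ Metric.ball o R
      · rw [indicator_of_mem hxb, sub_zero]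
      · rw [indicator_of_notMem hxb, hi2 x hxb, sub_zero]
    rw [heq, eLpNorm_indicator_eq_eLpNorm_restrict hmb]
    refine (eLpNorm_le_of_ae_bound (C := r / 2) (Eventually.of_forall fun x => ?_)).trans ?_
    · simpa using hi1 x
    · simpa [hM] using hr2
  have hT := gc_weak_cont_loc hS hsob hlim (gc_sob_zero hfin).1 hen hv hh'm hh'b hh's
  have h0 : ∫ x, h' x * gamma m (fun _ => (0 : ℝ)) v x ∂m = 0 := by
    refine integral_eq_zero_of_ae ?_
    filter_upwards [gc_gamma_const_left hS 0 hv] with x hx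
    show h' x * gamma m (fun _ => (0 : ℝ)) v x = 0
    rw [hx, mul_zero]
  rw [h0] at hT
  refine hT.congr' ?_
  filter_upwards [hls, hsupp] with i hi1 hi2
  refine integral_congr_ae ?_
  filter_upwards [gc_gamma_zero_on_level_left hS hi1 hv 0] with x hx
  by_cases hxb : x ∈ Metric.ball o R
  · rw [hh', indicator_of_mem hxb]
  · rw [hx (hi2 x hxb), mul_zero, mul_zero]

/-! ### C3. strong convergence -/

/-- weighted lower semicontinuity -/
theorem gc_energy_lsc_weight (hS : Std m K N) {ι : Type*} {l : Filter ι} [l.NeBot]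
    {fs : ι → X → ℝ} {f h : X → ℝ} {B C C' : ℝ} (hfs : ∀ᶠ i in l, Sobolev m (fs i))
    (hlim : gc_L2Lim m l fs f) (hf : MemLp f 2 m) (hC : ∀ᶠ i in l, energy m (fs i) ≤ C)
    (hh : AEStronglyMeasurable h m) (hb : AEBdd m h B) (h0 : ∀ᵐ x ∂m, 0 ≤ h x)
    (hC' : ∀ᶠ i in l, ∫ x, h x * (weakGradient m (fs i) x) ^ 2 ∂m ≤ C') :
    ∫ x, h x * (weakGradient m f x) ^ 2 ∂m ≤ C' := by
  obtain ⟨hsob, -⟩ := gc_sob_closure hS hfs hlim hf hC
  have hA0 : 0 ≤ ∫ x, h x * (weakGradient m f x) ^ 2 ∂m :=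
    integral_nonneg_of_ae (by filter_upwards [h0] with x hx using mul_nonneg hx (sq_nonneg _))
  have hlimA : Tendsto (fun i => ∫ x, h x * gamma m (fs i) f x ∂m) l
      (𝓝 (∫ x, h x * (weakGradient m f x) ^ 2 ∂m)) := by
    have h1 := gc_weak_cont hS hfs hlim hf hC hsob hh hb
    have e : ∫ x, h x * gamma m f f x ∂m = ∫ x, h x * (weakGradient m f x) ^ 2 ∂m :=
      integral_congr_ae (by
        filter_upwards [Gam.gc_gamma_self hS.finite hsob.2.1] with x hx
        rw [hx])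
    rwa [e] at h1
  have hbound : ∀ᶠ i in l, ∫ x, h x * gamma m (fs i) f x ∂m
      ≤ Real.sqrt C' * Real.sqrt (∫ x, h x * (weakGradient m f x) ^ 2 ∂m) := by
    filter_upwards [hfs, hC'] with i h1 h2
    calc ∫ x, h x * gamma m (fs i) f x ∂m ≤ |∫ x, h x * gamma m (fs i) f x ∂m| := le_abs_self _
      _ ≤ Real.sqrt (∫ x, h x * (weakGradient m (fs i) x) ^ 2 ∂m)
          * Real.sqrt (∫ x, h x * (weakGradient m f x) ^ 2 ∂m) :=
        Gam.gc_int_mul_gamma_abs_le hS h1 hsob hh hb h0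
      _ ≤ Real.sqrt C' * Real.sqrt (∫ x, h x * (weakGradient m f x) ^ 2 ∂m) :=
        mul_le_mul_of_nonneg_right (Real.sqrt_le_sqrt h2) (Real.sqrt_nonneg _)
  have hle := le_of_tendsto hlimA hbound
  obtain ⟨i, hi⟩ := hC'.exists
  have hC0 : 0 ≤ C' := le_trans
    (integral_nonneg_of_ae (by filter_upwards [h0] with x hx using mul_nonneg hx (sq_nonneg _))) hi
  rcases hA0.eq_or_lt with hA1 | hA1
  · rw [← hA1]; exact hC0
  · have hs : 0 < Real.sqrt (∫ x, h x * (weakGradient m f x) ^ 2 ∂m) := Real.sqrt_pos.2 hA1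
    have h3 : Real.sqrt (∫ x, h x * (weakGradient m f x) ^ 2 ∂m)
        * Real.sqrt (∫ x, h x * (weakGradient m f x) ^ 2 ∂m)
        ≤ Real.sqrt C' * Real.sqrt (∫ x, h x * (weakGradient m f x) ^ 2 ∂m) := by
      rw [Real.mul_self_sqrt hA0]; exact hle
    exact (Real.sqrt_le_sqrt_iff hC0).1 (le_of_mul_le_mul_right h3 hs)

/-- `‖ |Du| ‖_{L²} = sqrt (energy u)` -/
theorem gc_aux_eLpNorm_wg {u : X → ℝ} (hu : Sobolev m u) :
    eLpNorm (weakGradient m u) 2 m = ENNReal.ofReal (Real.sqrt (energy m u)) := by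
  rw [hu.2.2.eLpNorm_eq_integral_rpow_norm (by norm_num) (by norm_num)]
  congr 1
  rw [Real.sqrt_eq_rpow]
  unfold energy
  congr 1
  · refine integral_congr_ae (Filter.Eventually.of_forall fun x => ?_)
    simp only [ENNReal.toReal_ofNat, Real.norm_eq_abs]
    rw [Real.rpow_two, sq_abs]
  · simp

/-- Hölder: `‖u v‖_{L¹} ≤ ‖u‖_{L²} ‖v‖_{L²}` -/
theorem gc_aux_holder {u v : X → ℝ} (hu : AEStronglyMeasurable u m) (hv : AEStronglyMeasurable v m) :
    eLpNorm (fun x => u x * v x) 1 m ≤ eLpNorm u 2 m * eLpNorm v 2 m := by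
  have h := eLpNorm_smul_le_mul_eLpNorm (p := 2) (q := 2) (r := 1) (μ := m) (f := v) (φ := u) hv hu
  have e : (u • v) = fun x => u x * v x := by
    funext x
    simp [smul_eq_mul]
  rw [e] at h
  exact h

/-- `‖Γ(u,v)‖_{L¹} ≤ sqrt (energy u) sqrt (energy v)` -/
theorem gc_aux_gamma_L1 (hS : Std m K N) {u v : X → ℝ} (hu : Sobolev m u) (hv : Sobolev m v) :
    eLpNorm (gamma m u v) 1 m ≤ ENNReal.ofReal (Real.sqrt (energy m u) * Real.sqrt (energy m v)) := by
  have h1 : eLpNorm (gamma m u v) 1 m ≤ eLpNorm (fun x => weakGradient m u x * weakGradient m v x) 1 m := by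
    refine eLpNorm_mono_ae ?_
    filter_upwards [Gam.gc_gamma_abs_le hS hu.2.1 hv.2.1] with x hx
    rw [Real.norm_eq_abs, Real.norm_eq_abs]
    exact hx.trans (le_abs_self _)
  refine h1.trans ((gc_aux_holder hu.2.2.1 hv.2.2.1).trans ?_)
  rw [gc_aux_eLpNorm_wg hu, gc_aux_eLpNorm_wg hv, ← ENNReal.ofReal_mul (Real.sqrt_nonneg _)]

/-- `sqrt (energy v) ≤ sqrt (energy (v - w)) + sqrt (energy w)` -/
theorem gc_aux_sqrt_energy_le (hS : Std m K N) {v w : X → ℝ} (hv : Sobolev m v) (hw : Sobolev m w) :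
    Real.sqrt (energy m v) ≤ Real.sqrt (energy m (fun x => v x - w x)) + Real.sqrt (energy m w) := by
  have hd : Sobolev m (fun x => v x - w x) := WG.gc_sob_sub hS.finite hv hw
  have e : (fun x => (v x - w x) + w x) = v := by
    funext x
    ring
  have h1 : eLpNorm (weakGradient m v) 2 m
      ≤ eLpNorm (fun x => weakGradient m (fun x => v x - w x) x + weakGradient m w x) 2 m := by
    refine eLpNorm_mono_ae ?_
    have h2 := WG.gc_wg_add_le hS.finite hd.2.1 hw.2.1
    rw [e] at h2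
    filter_upwards [h2, WG.gc_wg_nonneg (m := m) v] with x hx h0
    rw [Real.norm_eq_abs, Real.norm_eq_abs, abs_of_nonneg h0]
    exact hx.trans (le_abs_self _)
  have h3 := h1.trans (eLpNorm_add_le hd.2.2.1 hw.2.2.1 (by norm_num))
  rw [gc_aux_eLpNorm_wg hv, gc_aux_eLpNorm_wg hd, gc_aux_eLpNorm_wg hw,
    ← ENNReal.ofReal_add (Real.sqrt_nonneg _) (Real.sqrt_nonneg _)] at h3
  exact (ENNReal.ofReal_le_ofReal_iff (add_nonneg (Real.sqrt_nonneg _) (Real.sqrt_nonneg _))).1 h3

/-- `f_i → f`, `g_i → g` in `W^{1,2}` ⟹ `Γ(f_i,g_i) → Γ(f,g)` in `L¹`. -/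
theorem gc_gamma_L1Lim (hS : Std m K N) {ι : Type*} {l : Filter ι}
    {fs gs : ι → X → ℝ} {f g : X → ℝ} (hfs : ∀ᶠ i in l, Sobolev m (fs i))
    (hgs : ∀ᶠ i in l, Sobolev m (gs i)) (hf : Sobolev m f) (hg : Sobolev m g)
    (hlf : gc_W12Lim m l fs f) (hlg : gc_W12Lim m l gs g) :
    gc_L1Lim m l (fun i => gamma m (fs i) (gs i)) (gamma m f g) := by
  unfold gc_L1Lim
  have hA : Tendsto (fun i => Real.sqrt (energy m (fun x => fs i x - f x))) l (𝓝 0) := by
    have := (Real.continuous_sqrt.tendsto 0).comp hlf.2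
    rw [Real.sqrt_zero] at this
    exact this
  have hB : Tendsto (fun i => Real.sqrt (energy m (fun x => gs i x - g x))) l (𝓝 0) := by
    have := (Real.continuous_sqrt.tendsto 0).comp hlg.2
    rw [Real.sqrt_zero] at this
    exact this
  have hlim : Tendsto (fun i => ENNReal.ofReal
      (Real.sqrt (energy m (fun x => fs i x - f x))
          * (Real.sqrt (energy m (fun x => gs i x - g x)) + Real.sqrt (energy m g))
        + Real.sqrt (energy m f) * Real.sqrt (energy m (fun x => gs i x - g x)))) l (𝓝 0) := by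
    have h1 := (hA.mul (hB.add_const (Real.sqrt (energy m g)))).add (hB.const_mul (Real.sqrt (energy m f)))
    have h2 := ENNReal.tendsto_ofReal h1
    simpa using h2
  refine tendsto_of_tendsto_of_tendsto_of_le_of_le' tendsto_const_nhds hlim
    (Filter.Eventually.of_forall fun _ => zero_le) ?_
  filter_upwards [hfs, hgs] with i hfi hgi
  have hdf : Sobolev m (fun x => fs i x - f x) := WG.gc_sob_sub hS.finite hfi hf
  have hdg : Sobolev m (fun x => gs i x - g x) := WG.gc_sob_sub hS.finite hgi hg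
  have hsplit : (fun x => gamma m (fs i) (gs i) x - gamma m f g x)
      =ᵐ[m] (fun x => gamma m (fun x => fs i x - f x) (gs i) x + gamma m f (fun x => gs i x - g x) x) := by
    filter_upwards [Gam.gc_gamma_sub_left hS hfi.2.1 hf.2.1 hgi.2.1,
      Gam.gc_gamma_sub_right hS hf.2.1 hgi.2.1 hg.2.1] with x h1 h2
    rw [h1, h2]
    ring
  rw [eLpNorm_congr_ae hsplit]
  refine (eLpNorm_add_le (Gam.gc_gamma_aesm _ _) (Gam.gc_gamma_aesm _ _) le_rfl).trans ?_
  have hs0 := Real.sqrt_nonneg (energy m (fun x => fs i x - f x))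
  have hs1 := Real.sqrt_nonneg (energy m (fun x => gs i x - g x))
  have hs2 := Real.sqrt_nonneg (energy m g)
  have hs3 := Real.sqrt_nonneg (energy m f)
  rw [ENNReal.ofReal_add (by positivity) (by positivity)]
  refine add_le_add ((gc_aux_gamma_L1 hS hdf hgi).trans ?_) (gc_aux_gamma_L1 hS hf hdg)
  exact ENNReal.ofReal_le_ofReal (mul_le_mul_of_nonneg_left (gc_aux_sqrt_energy_le hS hgi hg) hs0)

/-- consequence: convergence of integrals against a bounded weight. -/
theorem gc_int_mul_gamma_tendsto (hS : Std m K N) {ι : Type*} {l : Filter ι}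
    {fs gs : ι → X → ℝ} {f g h : X → ℝ} {B : ℝ} (hfs : ∀ᶠ i in l, Sobolev m (fs i))
    (hgs : ∀ᶠ i in l, Sobolev m (gs i)) (hf : Sobolev m f) (hg : Sobolev m g)
    (hlf : gc_W12Lim m l fs f) (hlg : gc_W12Lim m l gs g)
    (hh : AEStronglyMeasurable h m) (hb : AEBdd m h B) :
    Tendsto (fun i => ∫ x, h x * gamma m (fs i) (gs i) x ∂m) l
      (𝓝 (∫ x, h x * gamma m f g x ∂m)) := by
  have hL1 := gc_gamma_L1Lim hS hfs hgs hf hg hlf hlg
  unfold gc_L1Lim at hL1
  have hreal : Tendsto (fun i => |B| * (eLpNorm (fun x => gamma m (fs i) (gs i) x - gamma m f g x) 1 m).toReal)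
      l (𝓝 0) := by
    have := ((ENNReal.tendsto_toReal ENNReal.zero_ne_top).comp hL1).const_mul |B|
    simpa using this
  rw [tendsto_iff_dist_tendsto_zero]
  refine squeeze_zero' (Filter.Eventually.of_forall fun _ => dist_nonneg) ?_ hreal
  filter_upwards [hfs, hgs] with i hfi hgi
  have hi1 : Integrable (fun x => h x * gamma m (fs i) (gs i) x) m := Gam.gc_mul_gamma_integrable hS hfi hgi hh hb
  have hi2 : Integrable (fun x => h x * gamma m f g x) m := Gam.gc_mul_gamma_integrable hS hf hg hh hb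
  have hd : Integrable (fun x => gamma m (fs i) (gs i) x - gamma m f g x) m :=
    (Gam.gc_gamma_integrable hS hfi hgi).sub (Gam.gc_gamma_integrable hS hf hg)
  rw [Real.dist_eq, ← integral_sub hi1 hi2]
  have hnorm : (eLpNorm (fun x => gamma m (fs i) (gs i) x - gamma m f g x) 1 m).toReal
      = ∫ x, |gamma m (fs i) (gs i) x - gamma m f g x| ∂m := by
    rw [eLpNorm_one_eq_lintegral_enorm, integral_eq_lintegral_of_nonneg_ae
      (Filter.Eventually.of_forall fun _ => abs_nonneg _) hd.1.norm]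
    congr 1
    refine lintegral_congr fun x => ?_
    rw [← Real.norm_eq_abs, ofReal_norm]
  rw [hnorm, ← integral_const_mul]
  refine (abs_integral_le_integral_abs).trans ?_
  refine integral_mono_ae (hi1.sub hi2).abs (hd.abs.const_mul _) ?_
  filter_upwards [hb] with x hx
  show |h x * gamma m (fs i) (gs i) x - h x * gamma m f g x| ≤ _
  rw [← mul_sub, abs_mul]
  exact mul_le_mul_of_nonneg_right (hx.trans (le_abs_self B)) (abs_nonneg _)

theorem gc_energy_tendsto (hS : Std m K N) {ι : Type*} {l : Filter ι}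
    {fs : ι → X → ℝ} {f : X → ℝ} (hfs : ∀ᶠ i in l, Sobolev m (fs i)) (hf : Sobolev m f)
    (hlf : gc_W12Lim m l fs f) : Tendsto (fun i => energy m (fs i)) l (𝓝 (energy m f)) := by
  have h1 := gc_int_mul_gamma_tendsto (h := fun _ => (1 : ℝ)) (B := 1) hS hfs hfs hf hf hlf hlf
    aestronglyMeasurable_const (Filter.Eventually.of_forall fun _ => by simp)
  have e : ∀ u : X → ℝ, Sobolev m u → ∫ x, (1 : ℝ) * gamma m u u x ∂m = energy m u := by
    intro u hu
    unfold energy
    refine integral_congr_ae ?_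
    filter_upwards [Gam.gc_gamma_self hS.finite hu.2.1] with x hx
    rw [one_mul, hx]
  rw [e f hf] at h1
  refine h1.congr' ?_
  filter_upwards [hfs] with i hi
  exact e _ hi

theorem gc_aux_energy_add_ge (hS : Std m K N) {ι : Type*} {l : Filter ι} [l.NeBot]
    {fs : ι → X → ℝ} {f : X → ℝ} (hfs : ∀ᶠ i in l, Sobolev m (fs i)) (hf : Sobolev m f)
    (hlim : gc_L2Lim m l fs f) {ε : ℝ} (hε : 0 < ε) :
    ∀ᶠ i in l, 4 * energy m f - ε ≤ energy m (fun x => fs i x + f x) := by
  by_contra hcon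
  have hfr : ∃ᶠ i in l, i ∈ {i | ¬ (4 * energy m f - ε ≤ energy m (fun x => fs i x + f x))} :=
    Filter.not_eventually.1 hcon
  set s : Set ι := {i | ¬ (4 * energy m f - ε ≤ energy m (fun x => fs i x + f x))} with hs
  have : (l ⊓ 𝓟 s).NeBot := Filter.frequently_mem_iff_neBot.1 hfr
  have h1 : ∀ᶠ i in l ⊓ 𝓟 s, Sobolev m (fun x => fs i x + f x) :=
    (hfs.filter_mono inf_le_left).mono fun i hi => WG.gc_sob_add hS.finite hi hf
  have h2 : gc_L2Lim m (l ⊓ 𝓟 s) (fun i x => fs i x + f x) (fun x => f x + f x) := by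
    unfold gc_L2Lim at hlim ⊢
    have : (fun i => eLpNorm (fun x => fs i x + f x - (f x + f x)) 2 m)
        = fun i => eLpNorm (fun x => fs i x - f x) 2 m := by
      funext i
      congr 1
      funext x
      ring
    rw [this]
    exact hlim.mono_left inf_le_left
  have h3 : MemLp (fun x => f x + f x) 2 m := hf.1.add hf.1
  have h4 : ∀ᶠ i in l ⊓ 𝓟 s, energy m (fun x => fs i x + f x) ≤ 4 * energy m f - ε := by
    rw [Filter.eventually_inf_principal]
    exact Filter.Eventually.of_forall fun i hi => le_of_lt (not_le.1 hi)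
  have h5 := (gc_sob_closure hS h1 h2 h3 h4).2
  rw [Gam.gc_energy_add hS hf hf, Gam.gc_form_self hS.finite hf.2.1] at h5
  linarith

/-- `L²` convergence + `limsup` of the energies `≤` energy of the limit ⟹ `W^{1,2}` convergence. -/
theorem gc_W12Lim_of_energy (hS : Std m K N) {ι : Type*} {l : Filter ι} [l.NeBot]
    {fs : ι → X → ℝ} {f : X → ℝ} (hfs : ∀ᶠ i in l, Sobolev m (fs i)) (hf : Sobolev m f)
    (hlim : gc_L2Lim m l fs f)
    (hE : ∀ ε > 0, ∀ᶠ i in l, energy m (fs i) ≤ energy m f + ε) : gc_W12Lim m l fs f := by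
  refine ⟨hlim, ?_⟩
  rw [Metric.tendsto_nhds]
  intro ε hε
  have hε4 : 0 < ε / 4 := by linarith
  filter_upwards [hfs, hE (ε / 4) hε4, gc_aux_energy_add_ge hS hfs hf hlim hε4] with i h1 h2 h3
  have h4 := Gam.gc_energy_add hS h1 hf
  have h5 := Gam.gc_energy_sub hS h1 hf
  have h6 : 0 ≤ energy m (fun x => fs i x - f x) := Gam.gc_energy_nonneg _
  rw [Real.dist_eq, sub_zero, abs_of_nonneg h6]
  linarith

/-- completeness of `W^{1,2}`: a sequence which is Cauchy in `L²` and in energy converges. -/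
theorem gc_W12_complete (hS : Std m K N) {fs : ℕ → X → ℝ} (hfs : ∀ n, Sobolev m (fs n))
    (h2 : ∀ ε > 0, ∃ n0, ∀ n ≥ n0, ∀ k ≥ n0,
      eLpNorm (fun x => fs n x - fs k x) 2 m ≤ ENNReal.ofReal ε)
    (hE : ∀ ε > 0, ∃ n0, ∀ n ≥ n0, ∀ k ≥ n0, energy m (fun x => fs n x - fs k x) ≤ ε) :
    ∃ f, Sobolev m f ∧ gc_W12Lim m atTop fs f := by
  have hu : ∀ n, ChL2 m (gc_lp m (fs n)) < ∞ := fun n =>
    (Bridge.gc_chL2_lp_lt_top_iff hS (hfs n).1).2 (hfs n)
  have hc : CauchySeq (fun n => gc_lp m (fs n)) := by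
    rw [Metric.cauchySeq_iff']
    intro ε hε
    obtain ⟨n0, hn0⟩ := h2 (ε / 2) (by linarith)
    refine ⟨n0, fun n hn => ?_⟩
    have h := hn0 n hn n0 le_rfl
    rw [← Bridge.gc_lp_norm_sub (hfs n).1 (hfs n0).1,
      ENNReal.ofReal_le_ofReal_iff (by linarith)] at h
    rw [dist_eq_norm]
    linarith
  have hq : ∀ ε : ℝ≥0∞, 0 < ε → ∃ n0, ∀ n ≥ n0, ∀ k ≥ n0,
      ChL2 m (gc_lp m (fs n) - gc_lp m (fs k)) ≤ ε := by
    intro ε hε
    by_cases htop : ε = ∞
    · exact ⟨0, fun n _ k _ => htop ▸ le_top⟩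
    have hpos : 0 < ε.toReal := ENNReal.toReal_pos hε.ne' htop
    obtain ⟨n0, hn0⟩ := hE ε.toReal hpos
    refine ⟨n0, fun n hn k hk => ?_⟩
    rw [← Bridge.gc_lp_sub (hfs n).1 (hfs k).1,
      Bridge.gc_chL2_lp_eq hS (WG.gc_sob_sub hS.finite (hfs n) (hfs k))]
    refine ENNReal.ofReal_le_of_le_toReal ?_
    have := hn0 n hn k hk
    linarith
  obtain ⟨v, hv, hvt, hvq⟩ := HS.Ifc.hs_complete (Bridge.gc_qform hS) hu hc hq
  have hf : Sobolev m (v : X → ℝ) := (Bridge.gc_chL2_lt_top_iff hS v).1 hv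
  refine ⟨(v : X → ℝ), hf, ?_, ?_⟩
  · refine (Bridge.gc_lp_tendsto_iff (Filter.Eventually.of_forall fun n => (hfs n).1) hf.1).2 ?_
    rw [Bridge.gc_lp_self]
    exact hvt
  · have h1 : ∀ n, energy m (fun x => fs n x - (v : X → ℝ) x)
        = 2 * (ChL2 m (gc_lp m (fs n) - v)).toReal := by
      intro n
      have h3 : gc_lp m (fs n) - v = gc_lp m (fun x => fs n x - (v : X → ℝ) x) := by
        rw [Bridge.gc_lp_sub (hfs n).1 hf.1, Bridge.gc_lp_self]
      rw [h3, Bridge.gc_chL2_lp_toReal hS (WG.gc_sob_sub hS.finite (hfs n) hf)]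
      ring
    have h4 : Tendsto (fun n => (ChL2 m (gc_lp m (fs n) - v)).toReal) atTop (𝓝 0) := by
      have := (ENNReal.tendsto_toReal ENNReal.zero_ne_top).comp hvq
      rw [ENNReal.toReal_zero] at this
      exact this
    have h5 := h4.const_mul 2
    rw [mul_zero] at h5
    exact h5.congr fun n => (h1 n).symm

/-! ### C4. density -/

omit [MeasurableSpace X] [BorelSpace X] [CompleteSpace X] [TopologicalSpace.SeparableSpace X] in
/-- Lipschitz + bounded support ⟹ `LipC` (proper space). -/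
theorem gc_aux_lipC_of_bddSupp {g : X → ℝ} (hg : GloballyLipschitz g)
    (hs : Claimed.Agent.R210.RS.Defs.rs_BddSupp g) : LipC g :=
  ⟨hg, Metric.isCompact_of_isClosed_isBounded isClosed_closure (Bornology.IsBounded.closure hs)⟩

/-- `gc_lip_slope_approx`, with the additional information that the slopes are in `L²`. -/
theorem gc_aux_slope_approx (hS : Std m K N) {f : X → ℝ} (hf : Sobolev m f) :
    ∃ fs : ℕ → X → ℝ, (∀ n, LipC (fs n)) ∧ gc_L2Lim m atTop fs f ∧
      gc_L2Lim m atTop (fun n x => (localSlope (fs n) x).toReal) (weakGradient m f) ∧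
      ∀ n, MemLp (fun x => (localSlope (fs n) x).toReal) 2 m := by
  have hch : cheegerEnergy m f < ∞ := ((Bridge.gc_sob_iff hS).1 hf).2
  obtain ⟨gs, h1, h2, h3⟩ := Claimed.Agent.R210.RS.Ifc.rs_approx_bddSupp hch
  refine ⟨gs, fun n => gc_aux_lipC_of_bddSupp (h1 n).1.1 (h1 n).2, h2, ?_, fun n => (h1 n).1.2.2.1⟩
  have hid := Bridge.gc_need_id2 hS hf
  have e : ∀ n, eLpNorm (fun x => (localSlope (gs n) x).toReal - weakGradient m f x) 2 m
      = eLpNorm (fun x => Claimed.Agent.R210.RS.Defs.rs_lip (gs n) x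
          - Claimed.Agent.R210.RS.Defs.rs_slope m f x) 2 m := by
    intro n
    refine eLpNorm_congr_ae ?_
    filter_upwards [hid] with x hx
    rw [hx]
    rfl
  unfold gc_L2Lim
  simp only [e]
  exact h3

/-- `L²` convergence implies convergence of `∫ (·)²`. -/
theorem gc_aux_L2Lim_integral_sq {Gs : ℕ → X → ℝ} {G : X → ℝ} (hGs : ∀ n, MemLp (Gs n) 2 m)
    (hG : MemLp G 2 m) (hl : gc_L2Lim m atTop Gs G) :
    Tendsto (fun n => ∫ x, Gs n x ^ 2 ∂m) atTop (𝓝 (∫ x, G x ^ 2 ∂m)) := by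
  have ht : Tendsto (fun n => gc_lp m (Gs n)) atTop (𝓝 (gc_lp m G)) :=
    (Bridge.gc_lp_tendsto_iff (Eventually.of_forall hGs) hG).1 hl
  have h2 := ht.norm.pow 2
  rw [Bridge.gc_lp_norm_sq hG] at h2
  refine h2.congr (fun n => ?_)
  exact Bridge.gc_lp_norm_sq (hGs n)

/-- `LipC` is dense in `W^{1,2}`. -/
theorem gc_lipC_dense (hS : Std m K N) {f : X → ℝ} (hf : Sobolev m f) :
    ∃ fs : ℕ → X → ℝ, (∀ n, LipC (fs n)) ∧ gc_W12Lim m atTop fs f := by
  obtain ⟨fs, h1, h2, h3, h4⟩ := gc_aux_slope_approx hS hf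
  have hfs : ∀ n, Sobolev m (fs n) := fun n => WG.gc_sob_of_lipC hS.finite (h1 n)
  refine ⟨fs, h1, gc_W12Lim_of_energy hS (Eventually.of_forall hfs) hf h2 (fun ε hε => ?_)⟩
  have ht := gc_aux_L2Lim_integral_sq h4 hf.2.2 h3
  have hev : ∀ᶠ n in atTop, ∫ x, (localSlope (fs n) x).toReal ^ 2 ∂m
      < ∫ x, weakGradient m f x ^ 2 ∂m + ε := ht.eventually (gt_mem_nhds (by linarith))
  filter_upwards [hev] with n hn
  refine le_trans ?_ hn.le
  unfold energy
  refine integral_mono_ae (hfs n).2.2.integrable_sq (h4 n).integrable_sq ?_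
  filter_upwards [WG.gc_wg_le_slope hS.finite (WG.gc_lipLoc_of_lip (h1 n).1),
    WG.gc_wg_nonneg (m := m) (fs n)] with x hx hx0
  rw [← Claimed.Agent.R210.RS.Ifc.rs_ofReal_lip (h1 n).1 x,
    ENNReal.ofReal_le_ofReal_iff (Claimed.Agent.R210.RS.Ifc.rs_lip_nonneg _ _)] at hx
  exact pow_le_pow_left₀ hx0 hx 2

/-- the clamp is `1`-Lipschitz. -/
theorem gc_aux_clamp_sub_le (a b y z : ℝ) :
    |max a (min b y) - max a (min b z)| ≤ |y - z| := by
  calc |max a (min b y) - max a (min b z)| ≤ |min b y - min b z| := by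
        rw [max_comm a, max_comm a]; exact abs_max_sub_max_le_abs _ _ _
    _ ≤ |y - z| := by
        have h := abs_min_sub_min_le_max b y b z
        rwa [sub_self, abs_zero, max_eq_right (abs_nonneg _)] at h

theorem gc_aux_clamp_zero {a b : ℝ} (ha : a ≤ 0) (hb : 0 ≤ b) : max a (min b (0 : ℝ)) = 0 := by
  rw [min_eq_right hb, max_eq_right ha]

theorem gc_aux_clamp_abs_le {a b : ℝ} (ha : a ≤ 0) (hb : 0 ≤ b) (y : ℝ) :
    |max a (min b y)| ≤ |y| := by
  have h := gc_aux_clamp_sub_le a b y 0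
  rwa [gc_aux_clamp_zero ha hb, sub_zero, sub_zero] at h

theorem gc_aux_lipC_clamp {g : X → ℝ} (hg : LipC g) {a b : ℝ} (ha : a ≤ 0) (hb : 0 ≤ b) :
    LipC (fun x => max a (min b (g x))) := by
  obtain ⟨⟨L, hL⟩, hc⟩ := hg
  refine ⟨⟨L, (hL.const_min b).const_max a⟩, ?_⟩
  exact hc.comp_left (g := fun y => max a (min b y)) (gc_aux_clamp_zero ha hb)

open Claimed.Agent.R210.TP.Ifc in
theorem gc_aux_energy_mono {f g : X → ℝ} (hf : MemLp (weakGradient m f) 2 m)
    (hg : MemLp (weakGradient m g) 2 m)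
    (h : ∀ᵐ x ∂m, weakGradient m f x ≤ weakGradient m g x) : energy m f ≤ energy m g := by
  unfold energy
  refine integral_mono_ae hf.integrable_sq hg.integrable_sq ?_
  filter_upwards [h, tp_weakGradient_nonneg m f] with x hx h0
  exact pow_le_pow_left₀ h0 hx 2

open Claimed.Agent.R210.TP.Ifc in
/-- clamping a `W^{1,2}`-convergent sequence to an interval containing the range of the limit. -/
theorem gc_aux_clamp_W12 (hS : Std m K N) {f : X → ℝ} {a b : ℝ} (hf : Sobolev m f) (ha : a ≤ 0)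
    (hb : 0 ≤ b) (hab : ∀ᵐ x ∂m, a ≤ f x ∧ f x ≤ b) {gs : ℕ → X → ℝ}
    (hgs : ∀ n, Sobolev m (gs n)) (hlim : gc_W12Lim m atTop gs f) :
    gc_W12Lim m atTop (fun n x => max a (min b (gs n x))) f := by
  have hfin := hS.finite
  have hfs : ∀ n, Sobolev m (fun x => max a (min b (gs n x))) :=
    fun n => tp_sobolev_clamp hfin (hgs n) ha hb
  refine gc_W12Lim_of_energy hS (Eventually.of_forall hfs) hf ?_ ?_
  · refine tendsto_of_tendsto_of_tendsto_of_le_of_le tendsto_const_nhds hlim.1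
      (fun _ => zero_le) (fun n => ?_)
    refine eLpNorm_mono_ae ?_
    filter_upwards [hab] with x hx
    have h1 : f x = max a (min b (f x)) := by rw [min_eq_right hx.2, max_eq_right hx.1]
    simp only [Real.norm_eq_abs]
    calc |max a (min b (gs n x)) - f x| = |max a (min b (gs n x)) - max a (min b (f x))| := by
          rw [← h1]
      _ ≤ |gs n x - f x| := gc_aux_clamp_sub_le a b _ _
  · intro ε hε
    have hE := gc_energy_tendsto hS (Eventually.of_forall hgs) hf hlim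
    filter_upwards [hE.eventually_lt_const (by linarith : energy m f < energy m f + ε)] with n hn
    exact (gc_aux_energy_mono (hfs n).2.2 (hgs n).2.2
      (tp_weakGradient_clamp_le hfin (hgs n).2.1 a b)).trans hn.le

open Claimed.Agent.R210.TP.Ifc in
/-- the same keeping bounds: `|f| ≤ B` a.e. ⟹ `|f_n| ≤ B`; `f ≥ 0` a.e. ⟹ `f_n ≥ 0`. -/
theorem gc_lipC_dense_bdd (hS : Std m K N) {f : X → ℝ} {B : ℝ} (hf : Sobolev m f)
    (hb : AEBdd m f B) :
    ∃ fs : ℕ → X → ℝ, (∀ n, LipC (fs n)) ∧ (∀ n x, |fs n x| ≤ B) ∧ gc_W12Lim m atTop fs f ∧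
      ((∀ᵐ x ∂m, 0 ≤ f x) → ∀ n x, 0 ≤ fs n x) := by
  obtain ⟨gs, hgs, hlim⟩ := gc_lipC_dense hS hf
  rcases isEmpty_or_nonempty X with hX | hX
  · exact ⟨gs, hgs, fun n x => (hX.false x).elim, hlim, fun _ n x => (hX.false x).elim⟩
  have hB : 0 ≤ B := by
    have hm : m ≠ 0 := by
      intro h0
      have := hS.full univ isOpen_univ univ_nonempty
      simp [h0] at this
    have : NeBot (ae m) := ae_neBot.2 hm
    obtain ⟨x, hx⟩ := hb.exists
    exact (abs_nonneg _).trans hx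
  have key : ∀ a : ℝ, a ≤ 0 → -B ≤ a → (∀ᵐ x ∂m, a ≤ f x) →
      ∃ fs : ℕ → X → ℝ, (∀ n, LipC (fs n)) ∧ (∀ n x, |fs n x| ≤ B) ∧ gc_W12Lim m atTop fs f ∧
        ∀ n x, a ≤ fs n x := by
    intro a ha haB haf
    refine ⟨fun n x => max a (min B (gs n x)), fun n => gc_aux_lipC_clamp (hgs n) ha hB, ?_, ?_,
      fun n x => le_max_left _ _⟩
    · intro n x
      rw [abs_le]
      exact ⟨haB.trans (le_max_left _ _), max_le (ha.trans hB) (min_le_left _ _)⟩
    · refine gc_aux_clamp_W12 hS hf ha hB ?_ (fun n => tp_sobolev_of_lipC hS.finite (hgs n)) hlim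
      filter_upwards [haf, hb] with x h1 h2
      exact ⟨h1, (abs_le.1 h2).2⟩
  by_cases h0 : ∀ᵐ x ∂m, 0 ≤ f x
  · obtain ⟨fs, h1, h2, h3, h4⟩ := key 0 le_rfl (by linarith) h0
    exact ⟨fs, h1, h2, h3, fun _ => h4⟩
  · obtain ⟨fs, h1, h2, h3, _⟩ := key (-B) (by linarith) le_rfl
      (by filter_upwards [hb] with x hx; exact (abs_le.1 hx).1)
    exact ⟨fs, h1, h2, h3, fun h => absurd h h0⟩

/-- slopes: Lipschitz approximations whose SLOPES converge to `|Df|` in `L²` (RS3 + ID). -/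
theorem gc_lip_slope_approx (hS : Std m K N) {f : X → ℝ} (hf : Sobolev m f) :
    ∃ fs : ℕ → X → ℝ, (∀ n, LipC (fs n)) ∧ gc_L2Lim m atTop fs f ∧
      gc_L2Lim m atTop (fun n x => (localSlope (fs n) x).toReal) (weakGradient m f) := by
  obtain ⟨fs, h1, h2, h3, _⟩ := gc_aux_slope_approx hS hf
  exact ⟨fs, h1, h2, h3⟩

/-- `LipC` is dense in `L²`. -/
theorem gc_lipC_dense_L2 (hfin : FiniteOnBoundedSets m) {f : X → ℝ} (hf : MemLp f 2 m) :
    ∃ fs : ℕ → X → ℝ, (∀ n, LipC (fs n)) ∧ gc_L2Lim m atTop fs f := by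
  have h : ∀ n : ℕ, ∃ g : X → ℝ, eLpNorm (f - g) 2 m ≤ (n : ℝ≥0∞)⁻¹ ∧
      (GloballyLipschitz g ∧ Claimed.Agent.R210.RS.Defs.rs_BddSupp g) := fun n =>
    Claimed.Agent.R210.RS.Ifc.rs_dense_lip hfin hf (ENNReal.inv_ne_zero.2 (ENNReal.natCast_ne_top n))
  choose gs hgs using h
  refine ⟨gs, fun n => gc_aux_lipC_of_bddSupp (hgs n).2.1 (hgs n).2.2, ?_⟩
  unfold gc_L2Lim
  refine tendsto_of_tendsto_of_tendsto_of_le_of_le tendsto_const_nhds
    ENNReal.tendsto_inv_nat_nhds_zero (fun n => bot_le) (fun n => ?_)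
  have e : eLpNorm (fun x => gs n x - f x) 2 m = eLpNorm (f - gs n) 2 m :=
    eLpNorm_sub_comm (gs n) f 2 m
  show eLpNorm (fun x => gs n x - f x) 2 m ≤ (n : ℝ≥0∞)⁻¹
  rw [e]
  exact (hgs n).1

/-- dominated convergence in `L²`. -/
theorem gc_aux_L2_dct {fs : ℕ → X → ℝ} {f g : X → ℝ} (hg : MemLp g 2 m)
    (hfs : ∀ n, AEStronglyMeasurable (fs n) m) (hf : AEStronglyMeasurable f m)
    (hdom : ∀ n, ∀ᵐ x ∂m, |fs n x - f x| ≤ |g x|)
    (hlim : ∀ᵐ x ∂m, Tendsto (fun n => fs n x) atTop (𝓝 (f x))) : gc_L2Lim m atTop fs f := by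
  have h2 : (2 : ℝ≥0∞) ≠ 0 := by norm_num
  have h2' : (2 : ℝ≥0∞) ≠ ∞ := by norm_num
  have hfin : ∫⁻ a, ‖g a‖ₑ ^ (2 : ℝ≥0∞).toReal ∂m ≠ ∞ :=
    (lintegral_rpow_enorm_lt_top_of_eLpNorm_lt_top h2 h2' hg.eLpNorm_lt_top).ne
  have hl : Tendsto (fun n : ℕ => ∫⁻ a, ‖fs n a - f a‖ₑ ^ (2 : ℝ≥0∞).toReal ∂m)
      atTop (𝓝 (∫⁻ _, (0 : ℝ≥0∞) ∂m)) := by
    refine tendsto_lintegral_of_dominated_convergence' (fun a => ‖g a‖ₑ ^ (2 : ℝ≥0∞).toReal)
      ?_ ?_ hfin ?_
    · intro n
      exact (((hfs n).sub hf).enorm).pow_const _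
    · intro n
      filter_upwards [hdom n] with a ha
      refine ENNReal.rpow_le_rpow ?_ (by norm_num)
      rw [enorm_le_iff_norm_le]
      simpa only [Real.norm_eq_abs] using ha
    · filter_upwards [hlim] with a ha
      have h3 : Tendsto (fun n => fs n a - f a) atTop (𝓝 0) := by
        simpa using ha.sub_const (f a)
      have h4 : Tendsto (fun n => ‖fs n a - f a‖ₑ) atTop (𝓝 0) := by
        simpa using h3.enorm
      have h5 := (ENNReal.continuous_rpow_const (y := (2 : ℝ≥0∞).toReal)).tendsto 0 |>.comp h4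
      have h6 : (0 : ℝ≥0∞) ^ ((2 : ℝ≥0∞).toReal) = 0 := by
        rw [ENNReal.zero_rpow_of_pos]
        norm_num
      rw [h6] at h5
      exact h5
  rw [lintegral_zero] at hl
  have h3 := (ENNReal.continuous_rpow_const (y := 1 / (2 : ℝ≥0∞).toReal)).tendsto 0 |>.comp hl
  have h4 : (0 : ℝ≥0∞) ^ (1 / (2 : ℝ≥0∞).toReal) = 0 := by
    rw [ENNReal.zero_rpow_of_pos]
    norm_num
  rw [h4] at h3
  refine h3.congr fun n => ?_
  rw [eLpNorm_eq_lintegral_rpow_enorm_toReal h2 h2']
  rfl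

/-- the cut-off function `χ_n = max 0 (min 1 (2 - d(·,o)/(n+1)))`. -/
theorem gc_aux_cut_lip (o : X) (n : ℕ) :
    LipschitzWith (1 / ((n : ℝ≥0) + 1)) (fun x => max (0 : ℝ) (min 1 (2 - dist x o / ((n : ℝ) + 1)))) := by
  refine LipschitzWith.of_dist_le_mul fun x y => ?_
  have hn : (0 : ℝ) < (n : ℝ) + 1 := by positivity
  rw [Real.dist_eq]
  refine (gc_aux_clamp_sub_le 0 1 _ _).trans ?_
  have h1 : (2 - dist x o / ((n : ℝ) + 1)) - (2 - dist y o / ((n : ℝ) + 1))
      = (dist y o - dist x o) / ((n : ℝ) + 1) := by ring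
  rw [h1, abs_div, abs_of_pos hn]
  have h2 : |dist y o - dist x o| ≤ dist x y := by
    rw [dist_comm x y]; exact abs_dist_sub_le y x o
  have h3 : (((1 / ((n : ℝ≥0) + 1) : ℝ≥0)) : ℝ) = 1 / ((n : ℝ) + 1) := by
    push_cast; rfl
  rw [h3, one_div, inv_mul_eq_div]
  exact div_le_div_of_nonneg_right h2 hn.le

open Claimed.Agent.R210.TP.Ifc in
/-- cut-off and truncation: `f_n = χ_n · max(min(f,n),-n) → f` in `W^{1,2}`; the `f_n` are bounded,
with bounded support.  (`[Nonempty X]`: on the empty type `gc_BddSupp` is false.) -/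
theorem gc_trunc_dense [Nonempty X] (hS : Std m K N) {f : X → ℝ} (hf : Sobolev m f) :
    ∃ fs : ℕ → X → ℝ, (∀ n, Sobolev m (fs n)) ∧ (∀ n, gc_BddSupp (fs n)) ∧
      (∀ n, ∃ B, ∀ x, |fs n x| ≤ B) ∧ (∀ n x, |fs n x| ≤ |f x|) ∧ gc_W12Lim m atTop fs f := by
  have hfin := hS.finite
  obtain ⟨o⟩ := ‹Nonempty X›
  set χ : ℕ → X → ℝ := fun n x => max (0 : ℝ) (min 1 (2 - dist x o / ((n : ℝ) + 1))) with hχ
  set T : ℕ → X → ℝ := fun n x => max (-(n : ℝ)) (min (n : ℝ) (f x)) with hT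
  have hχ0 : ∀ n x, 0 ≤ χ n x := fun n x => le_max_left _ _
  have hχ1 : ∀ n x, χ n x ≤ 1 := fun n x => max_le zero_le_one (min_le_left _ _)
  have hχabs : ∀ n x, |χ n x| ≤ 1 := fun n x => by
    rw [abs_of_nonneg (hχ0 n x)]; exact hχ1 n x
  have hχL : ∀ n : ℕ, LipschitzWith (1 / ((n : ℝ≥0) + 1)) (χ n) := fun n => gc_aux_cut_lip o n
  have hχB : ∀ n, LipB (χ n) := fun n => ⟨⟨_, hχL n⟩, ⟨1, hχabs n⟩⟩
  have hn0 : ∀ n : ℕ, -(n : ℝ) ≤ 0 := fun n => by simp
  have hn1 : ∀ n : ℕ, (0 : ℝ) ≤ n := fun n => by simp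
  have hTS : ∀ n, Sobolev m (T n) := fun n => tp_sobolev_clamp hfin hf (hn0 n) (hn1 n)
  have hTabs : ∀ n x, |T n x| ≤ |f x| := fun n x => gc_aux_clamp_abs_le (hn0 n) (hn1 n) _
  have hTn : ∀ (n : ℕ) x, |T n x| ≤ n := fun n x => by
    rw [abs_le]; exact ⟨le_max_left _ _, max_le ((hn0 n).trans (hn1 n)) (min_le_left _ _)⟩
  have hfsS : ∀ n, Sobolev m (fun x => χ n x * T n x) :=
    fun n => tp_sobolev_lipB_mul hfin (hTS n) (hχB n)
  have hle : ∀ n x, |χ n x * T n x| ≤ |T n x| := fun n x => by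
    rw [abs_mul]; exact mul_le_of_le_one_left (abs_nonneg _) (hχabs n x)
  refine ⟨fun n x => χ n x * T n x, hfsS, ?_, ?_, ?_, ?_⟩
  · intro n
    refine ⟨o, 2 * ((n : ℝ) + 1), fun x hx => ?_⟩
    have hn : (0 : ℝ) < (n : ℝ) + 1 := by positivity
    have h1 : 2 * ((n : ℝ) + 1) ≤ dist x o := by simpa [Metric.mem_ball] using hx
    have h2 : 2 - dist x o / ((n : ℝ) + 1) ≤ 0 := by
      rw [sub_nonpos, le_div_iff₀ hn]; exact h1
    have h3 : χ n x = 0 := max_eq_left ((min_le_right _ _).trans h2)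
    simp only [h3, zero_mul]
  · intro n
    exact ⟨n, fun x => (hle n x).trans (hTn n x)⟩
  · intro n x
    exact (hle n x).trans (hTabs n x)
  · refine gc_W12Lim_of_energy hS (Eventually.of_forall hfsS) hf ?_ ?_
    · refine gc_aux_L2_dct (g := fun x => 2 * f x) (hf.1.const_mul 2)
        (fun n => (hfsS n).1.aestronglyMeasurable) hf.1.aestronglyMeasurable ?_ ?_
      · intro n
        refine Eventually.of_forall fun x => ?_
        calc |χ n x * T n x - f x| ≤ |χ n x * T n x| + |f x| := abs_sub _ _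
          _ ≤ |f x| + |f x| := by
              have := (hle n x).trans (hTabs n x)
              linarith
          _ = |2 * f x| := by rw [abs_mul, abs_two]; ring
      · refine Eventually.of_forall fun x => ?_
        refine tendsto_const_nhds.congr' ?_
        obtain ⟨N1, hN1⟩ := exists_nat_gt (max (dist x o) |f x|)
        filter_upwards [eventually_ge_atTop N1] with n hn
        have hnN : max (dist x o) |f x| < n := hN1.trans_le (by exact_mod_cast hn)
        have hd : dist x o < n := (le_max_left _ _).trans_lt hnN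
        have hfx : |f x| < n := (le_max_right _ _).trans_lt hnN
        have h1 : χ n x = 1 := by
          have h3 : (1 : ℝ) ≤ 2 - dist x o / ((n : ℝ) + 1) := by
            have : dist x o / ((n : ℝ) + 1) ≤ 1 := by
              rw [div_le_one (by positivity)]; linarith
            linarith
          simp only [hχ]
          rw [min_eq_left h3]
          exact max_eq_right zero_le_one
        have h2 : T n x = f x := by
          simp only [hT]
          rw [min_eq_right (le_of_abs_le hfx.le), max_eq_right (neg_le_of_abs_le hfx.le)]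
        rw [h1, h2, one_mul]
    · intro ε hε
      set C : ℝ := energy m f + 2 * ∫ x, (f x) ^ 2 ∂m with hC
      have hI1 : Integrable (fun x => (weakGradient m f x) ^ 2) m := hf.2.2.integrable_sq
      have hI2 : Integrable (fun x => (f x) ^ 2) m := hf.1.integrable_sq
      have hbound : ∀ n : ℕ,
          energy m (fun x => χ n x * T n x) ≤ energy m f + (1 / ((n : ℝ) + 1)) * C := by
        intro n
        set t : ℝ := 1 / ((n : ℝ) + 1) with ht
        have ht0 : 0 ≤ t := by positivity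
        have ht1 : t ≤ 1 := by
          rw [ht, div_le_one (by positivity)]
          linarith [hn1 n]
        have hw := (tp_localSobolev_lip_mul hfin (hTS n).2.1
          (tp_lipOnBdd_of_lipschitz (hχL n))).2
        have hχw := tp_weakGradient_le_of_lipschitz hfin (hχL n)
        have hTw := tp_weakGradient_clamp_le hfin hf.2.1 (-(n : ℝ)) (n : ℝ)
        have hcast : (((1 / ((n : ℝ≥0) + 1) : ℝ≥0)) : ℝ) = t := by
          push_cast; rfl
        calc energy m (fun x => χ n x * T n x)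
            = ∫ x, (weakGradient m (fun x => χ n x * T n x) x) ^ 2 ∂m := rfl
          _ ≤ ∫ x, ((weakGradient m f x) ^ 2
                + t * ((weakGradient m f x) ^ 2 + 2 * (f x) ^ 2)) ∂m := by
              refine integral_mono_ae (hfsS n).2.2.integrable_sq
                (hI1.add ((hI1.add (hI2.const_mul 2)).const_mul t)) ?_
              filter_upwards [hw, hχw, hTw, tp_weakGradient_nonneg m (fun x => χ n x * T n x),
                tp_weakGradient_nonneg m f, tp_weakGradient_nonneg m (T n),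
                tp_weakGradient_nonneg m (χ n)] with x h1 h2 h3 h4 h5 h6 h7
              rw [hcast] at h2
              have h8 : weakGradient m (fun x => χ n x * T n x) x
                  ≤ weakGradient m f x + t * |f x| := by
                calc weakGradient m (fun x => χ n x * T n x) x
                    ≤ |χ n x| * weakGradient m (T n) x + |T n x| * weakGradient m (χ n) x := h1
                  _ ≤ 1 * weakGradient m f x + |f x| * t := by
                      refine add_le_add ?_ ?_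
                      · exact mul_le_mul (hχabs n x) h3 h6 zero_le_one
                      · exact mul_le_mul (hTabs n x) h2 h7 (abs_nonneg _)
                  _ = weakGradient m f x + t * |f x| := by ring
              have h9 : (weakGradient m (fun x => χ n x * T n x) x) ^ 2
                  ≤ (weakGradient m f x + t * |f x|) ^ 2 := pow_le_pow_left₀ h4 h8 2
              have h10 : (weakGradient m f x + t * |f x|) ^ 2
                  ≤ (weakGradient m f x) ^ 2 + t * ((weakGradient m f x) ^ 2 + 2 * (f x) ^ 2) := by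
                have e1 := mul_nonneg ht0 (sq_nonneg (weakGradient m f x - |f x|))
                have e2 := mul_nonneg (mul_nonneg ht0 (sub_nonneg.2 ht1)) (sq_nonneg |f x|)
                have e3 := sq_abs (f x)
                nlinarith [e1, e2, e3]
              exact h9.trans h10
          _ = energy m f + t * C := by
              have hI3 : Integrable (fun x => (weakGradient m f x) ^ 2 + 2 * (f x) ^ 2) m :=
                hI1.add (hI2.const_mul 2)
              rw [integral_add hI1 (hI3.const_mul t), integral_const_mul,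
                integral_add hI1 (hI2.const_mul 2), integral_const_mul]
              rfl
      have hlim : Tendsto (fun n : ℕ => (1 / ((n : ℝ) + 1)) * C) atTop (𝓝 0) := by
        simpa using (tendsto_one_div_add_atTop_nhds_zero_nat (𝕜 := ℝ)).mul_const C
      filter_upwards [hlim.eventually_lt_const hε] with n hn
      linarith [hbound n]

end Claimed.Agent.R210.GC.Conv
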