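/-
Row 210 (S0432), layer GC, interface part D: the frozen Laplacian, the resolvent `resF` and the heat flow `heatF`
at the level of functions (bridge to the Hilbert space layer HS and to HF).
Architect: helper277.  Consumers: import `Claimed.Agent.R210.GC.Ifc`.
Proofs: helper250, from `GCD/Ifc.lean` (more statements there: `gcd_*`, e.g. weights, mass, `NiceDens`, `gcd_ibp_lipB`,
`gcd_resF_weak_lipB`, continuity in the datum, `gcd_heatF_crit`; they are visible to every consumer of `GC.Ifc`).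
-/
import Claimed.Agent.R210.GC.Conv
import Claimed.Agent.R210.GCD.Ifc

set_option autoImplicit false
set_option linter.unusedVariables false

open Claims.C0366 Claims.C0366.WeakHessian
open Set Filter MeasureTheory
open scoped ENNReal NNReal Topology

namespace Claimed.Agent.R210.GC.Lap

open Claimed.Agent.R210.Defs Claimed.Agent.R210.Defs2 Claimed.Agent.R210.GC.Defs
open Claimed.Agent.R210.HS.Defs Claimed.Agent.R210.GCD.Ifc

variable {X : Type*} [MetricSpace X] [MeasurableSpace X] [BorelSpace X]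
  [CompleteSpace X] [TopologicalSpace.SeparableSpace X] [ProperSpace X]
  {m : Measure X} {K N : ℝ}

/-! ### D0. the frozen Laplacian -/

theorem gc_isLaplacian_iff_isGen (hS : Std m K N) {u L : X → ℝ} (hu : MemLp u 2 m)
    (hL : MemLp L 2 m) : IsLaplacian m u L ↔ IsGen (ChL2 m) (hu.toLp u) (hL.toLp L) :=
  gcd_isLaplacian_iff_isGen hS hu hL

theorem gc_isLaplacian_unique (hS : Std m K N) {u L L' : X → ℝ} (h : IsLaplacian m u L)
    (h' : IsLaplacian m u L') : L =ᵐ[m] L' :=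
  gcd_isLaplacian_unique hS h h'

theorem gc_laplacian_spec {u : X → ℝ} (h : InLaplacianDomain m u) :
    IsLaplacian m u (laplacian m u) :=
  gcd_laplacian_spec h

theorem gc_laplacian_ae_eq (hS : Std m K N) {u L : X → ℝ} (h : IsLaplacian m u L) :
    laplacian m u =ᵐ[m] L :=
  gcd_laplacian_eq hS h

theorem gc_laplacian_memLp (u : X → ℝ) : MemLp (laplacian m u) 2 m :=
  gcd_laplacian_memLp u

theorem gc_isLaplacian_congr {u u' L L' : X → ℝ} (hu : u =ᵐ[m] u') (hL : L =ᵐ[m] L')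
    (h : IsLaplacian m u L) : IsLaplacian m u' L' := by
  refine ⟨WG.gc_sob_congr hu h.1, (memLp_congr_ae hL).1 h.2.1, fun v hv => ?_⟩
  rw [← Gam.gc_gamma_congr hu (EventuallyEq.refl _ v), h.2.2 v hv]
  congr 1
  exact integral_congr_ae (hL.mono fun x hx => by simp only [hx])

/-- equality of FUNCTIONS -/
theorem gc_laplacian_congr {u u' : X → ℝ} (hu : u =ᵐ[m] u') : laplacian m u = laplacian m u' := by
  have hp : IsLaplacian m u = IsLaplacian m u' := by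
    funext L
    exact propext ⟨fun h => gc_isLaplacian_congr hu (Filter.EventuallyEq.refl _ _) h,
      fun h => gc_isLaplacian_congr hu.symm (Filter.EventuallyEq.refl _ _) h⟩
  have key : ∀ P Q : (X → ℝ) → Prop, P = Q →
      (@dite _ (∃ L, P L) (Classical.propDecidable _) (fun h => Classical.choose h)
          (fun _ => (0 : X → ℝ))) =
        (@dite _ (∃ L, Q L) (Classical.propDecidable _) (fun h => Classical.choose h)
          (fun _ => (0 : X → ℝ))) := by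
    intro P Q hPQ
    subst hPQ
    rfl
  exact key _ _ hp

theorem gc_isLaplacian_zero (hS : Std m K N) :
    IsLaplacian m (fun _ : X => (0 : ℝ)) (fun _ => 0) :=
  gcd_isLaplacian_zero hS

theorem gc_isLaplacian_add (hS : Std m K N) {u v L M : X → ℝ} (hu : IsLaplacian m u L)
    (hv : IsLaplacian m v M) : IsLaplacian m (fun x => u x + v x) (fun x => L x + M x) :=
  gcd_isLaplacian_add hS hu hv

theorem gc_isLaplacian_sub (hS : Std m K N) {u v L M : X → ℝ} (hu : IsLaplacian m u L)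
    (hv : IsLaplacian m v M) : IsLaplacian m (fun x => u x - v x) (fun x => L x - M x) :=
  gcd_isLaplacian_sub hS hu hv

theorem gc_isLaplacian_const_mul (hS : Std m K N) (c : ℝ) {u L : X → ℝ}
    (hu : IsLaplacian m u L) : IsLaplacian m (fun x => c * u x) (fun x => c * L x) :=
  gcd_isLaplacian_smul hS c hu

/-- integration by parts (restatement of the definition) -/
theorem gc_ibp {u v : X → ℝ} (hu : InLaplacianDomain m u) (hv : Sobolev m v) :
    ∫ x, gamma m u v x ∂m = - ∫ x, laplacian m u x * v x ∂m :=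
  gcd_ibp hu hv

/-- integration by parts with a weight: `∫ h Γ(u,v) = -∫ h v Δu - ∫ v Γ(u,h)`
for `v, h ∈ W^{1,2} ∩ L^∞`. -/
theorem gc_ibp_weight (hS : Std m K N) {u v h : X → ℝ} {A B : ℝ} (hu : InLaplacianDomain m u)
    (hv : Sobolev m v) (hh : Sobolev m h) (hvb : AEBdd m v A) (hhb : AEBdd m h B) :
    ∫ x, h x * gamma m u v x ∂m
      = - (∫ x, h x * v x * laplacian m u x ∂m) - ∫ x, v x * gamma m u h x ∂m := by
  have hL := gcd_laplacian_spec hu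
  have hhv : Sobolev m (fun x => h x * v x) := WG.gc_sob_mul hS.finite hh hv hhb hvb
  have h1 := hL.2.2 _ hhv
  have h2 := Gam.gc_gamma_mul_right hS hh.2.1 hv.2.1 hhv.2.1 hL.1.2.1
  have i1 : Integrable (fun x => h x * gamma m u v x) m :=
    Gam.gc_mul_gamma_integrable hS hL.1 hv hh.1.aestronglyMeasurable hhb
  have i2 : Integrable (fun x => v x * gamma m u h x) m :=
    Gam.gc_mul_gamma_integrable hS hL.1 hh hv.1.aestronglyMeasurable hvb
  rw [integral_congr_ae h2, integral_add i1 i2] at h1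
  have h3 : ∫ x, laplacian m u x * (h x * v x) ∂m = ∫ x, h x * v x * laplacian m u x ∂m :=
    integral_congr_ae (Eventually.of_forall fun x => by ring)
  rw [h3] at h1
  linarith

/-- it suffices to test with `LipC` functions. -/
theorem gc_isLaplacian_of_lipC (hS : Std m K N) {u L : X → ℝ} (hu : Sobolev m u)
    (hL : MemLp L 2 m)
    (h : ∀ v : X → ℝ, LipC v → ∫ x, gamma m u v x ∂m = - ∫ x, L x * v x ∂m) :
    IsLaplacian m u L :=
  gcd_isLaplacian_of_lipC hS hu hL h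

/-- closedness of the Laplacian -/
theorem gc_isLaplacian_closed (hS : Std m K N) {ι : Type*} {l : Filter ι} [l.NeBot]
    {us Ls : ι → X → ℝ} {u L : X → ℝ} (h : ∀ᶠ i in l, IsLaplacian m (us i) (Ls i))
    (hu : gc_L2Lim m l us u) (hL : gc_L2Lim m l Ls L) (hu2 : MemLp u 2 m) (hL2 : MemLp L 2 m) :
    IsLaplacian m u L ∧ gc_W12Lim m l us u := by
  have h1 := gcd_isLaplacian_closed hS h hu2 hL2 hu hL
  exact ⟨h1, hu, gcd_isLaplacian_tendsto_energy hS h h1 hu hL⟩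

/-- `energy u = -∫ u Δu ≤ ‖u‖ ‖Δu‖` -/
theorem gc_energy_eq_of_isLaplacian (hS : Std m K N) {u L : X → ℝ} (h : IsLaplacian m u L) :
    energy m u = - ∫ x, L x * u x ∂m :=
  gcd_lap_energy hS h

/-! ### D1. chain and Leibniz rule for the Laplacian -/

theorem gc_isLaplacian_comp (hS : Std m K N) {u L : X → ℝ} {φ : ℝ → ℝ} {B C : ℝ}
    (hu : IsLaplacian m u L) (hb : AEBdd m u B) (hg : ∀ᵐ x ∂m, weakGradient m u x ≤ C)
    (hφ : ContDiff ℝ 2 φ) (h0 : φ 0 = 0) :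
    IsLaplacian m (fun x => φ (u x))
      (fun x => deriv φ (u x) * L x + deriv (deriv φ) (u x) * gamma m u u x) := by
  have hB' : AEBdd m (weakGradient m u) C := by
    filter_upwards [hg, WG.gc_wg_nonneg (m := m) u] with x h1 h2
    rw [abs_of_nonneg h2]; exact h1
  exact gcd_lap_chain hS hu hb hB' hφ h0

theorem gc_isLaplacian_mul (hS : Std m K N) {u v L M : X → ℝ} {B B' C C' : ℝ}
    (hu : IsLaplacian m u L) (hv : IsLaplacian m v M) (hub : AEBdd m u B) (hvb : AEBdd m v B')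
    (hug : ∀ᵐ x ∂m, weakGradient m u x ≤ C) (hvg : ∀ᵐ x ∂m, weakGradient m v x ≤ C') :
    IsLaplacian m (fun x => u x * v x)
      (fun x => u x * M x + v x * L x + 2 * gamma m u v x) := by
  have h1 : AEBdd m u (max B B') := hub.mono fun x hx => hx.trans (le_max_left _ _)
  have h2 : AEBdd m v (max B B') := hvb.mono fun x hx => hx.trans (le_max_right _ _)
  have h3 : AEBdd m (weakGradient m u) (max C C') := by
    filter_upwards [hug, WG.gc_wg_nonneg (m := m) u] with x h1 h2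
    rw [abs_of_nonneg h2]; exact h1.trans (le_max_left _ _)
  have h4 : AEBdd m (weakGradient m v) (max C C') := by
    filter_upwards [hvg, WG.gc_wg_nonneg (m := m) v] with x h1 h2
    rw [abs_of_nonneg h2]; exact h1.trans (le_max_right _ _)
  exact gcd_lap_mul hS hu hv h1 h2 h3 h4

/-! ### D2. the resolvent `resF m δ f = (1 - δΔ)⁻¹ f` -/

theorem gc_resF_coe {δ : ℝ} {f : X → ℝ} (hf : MemLp f 2 m) :
    resF m δ f = ((prox (ChL2 m) δ (hf.toLp f) : Lp ℝ 2 m) : X → ℝ) :=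
  gcd_resF_eq hf δ

theorem gc_resF_memLp (δ : ℝ) (f : X → ℝ) : MemLp (resF m δ f) 2 m :=
  gcd_resF_memLp δ f

/-- equality of FUNCTIONS -/
theorem gc_resF_congr {δ : ℝ} {f g : X → ℝ} (h : f =ᵐ[m] g) : resF m δ f = resF m δ g :=
  gcd_resF_congr h δ

theorem gc_resF_isLaplacian (hS : Std m K N) {δ : ℝ} (hδ : 0 < δ) {f : X → ℝ}
    (hf : MemLp f 2 m) :
    IsLaplacian m (resF m δ f) (fun x => (resF m δ f x - f x) / δ) :=
  gcd_resF_spec hS hδ hf

theorem gc_resF_sob (hS : Std m K N) {δ : ℝ} (hδ : 0 < δ) (f : X → ℝ) :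
    Sobolev m (resF m δ f) := by
  by_cases hf : MemLp f 2 m
  · exact gcd_resF_sobolev hS hδ hf
  · have : resF m δ f = fun _ => (0 : ℝ) := by
      unfold resF; rw [dif_neg hf]; rfl
    rw [this]; exact gcd_sobolev_zero hS

theorem gc_resF_unique (hS : Std m K N) {δ : ℝ} (hδ : 0 < δ) {f u : X → ℝ} (hf : MemLp f 2 m)
    (hu : IsLaplacian m u (fun x => (u x - f x) / δ)) : u =ᵐ[m] resF m δ f :=
  gcd_resF_unique hS hδ hu (Eventually.of_forall fun x => by field_simp; ring)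

/-- `u ∈ D(Δ)` ⟹ `u = resF δ (u - δ Δu)`. -/
theorem gc_resF_of_isLaplacian (hS : Std m K N) {δ : ℝ} (hδ : 0 < δ) {u L : X → ℝ}
    (hu : IsLaplacian m u L) : resF m δ (fun x => u x - δ * L x) =ᵐ[m] u :=
  (gcd_resF_unique hS hδ hu (Eventually.of_forall fun x => rfl)).symm

/-- weak formulation: `∫ u v + δ ∫ Γ(u,v) = ∫ f v` for `u = resF m δ f`. -/
theorem gc_resF_weak (hS : Std m K N) {δ : ℝ} (hδ : 0 < δ) {f v : X → ℝ} (hf : MemLp f 2 m)
    (hv : Sobolev m v) :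
    ∫ x, resF m δ f x * v x ∂m + δ * ∫ x, gamma m (resF m δ f) v x ∂m = ∫ x, f x * v x ∂m :=
  gcd_resF_weak hS hδ hf hv

theorem gc_resF_add (hS : Std m K N) {δ : ℝ} (hδ : 0 < δ) {f g : X → ℝ} (hf : MemLp f 2 m)
    (hg : MemLp g 2 m) :
    resF m δ (fun x => f x + g x) =ᵐ[m] fun x => resF m δ f x + resF m δ g x :=
  gcd_resF_add hS hδ hf hg

theorem gc_resF_sub (hS : Std m K N) {δ : ℝ} (hδ : 0 < δ) {f g : X → ℝ} (hf : MemLp f 2 m)
    (hg : MemLp g 2 m) :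
    resF m δ (fun x => f x - g x) =ᵐ[m] fun x => resF m δ f x - resF m δ g x :=
  gcd_resF_sub hS hδ hf hg

theorem gc_resF_const_mul (hS : Std m K N) {δ : ℝ} (hδ : 0 < δ) (c : ℝ) {f : X → ℝ}
    (hf : MemLp f 2 m) : resF m δ (fun x => c * f x) =ᵐ[m] fun x => c * resF m δ f x :=
  gcd_resF_smul hS hδ c hf

theorem gc_resF_symm (hS : Std m K N) {δ : ℝ} (hδ : 0 < δ) {f g : X → ℝ} (hf : MemLp f 2 m)
    (hg : MemLp g 2 m) : ∫ x, resF m δ f x * g x ∂m = ∫ x, f x * resF m δ g x ∂m :=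
  gcd_resF_symm hS hδ hf hg

theorem gc_resF_norm_le (hS : Std m K N) {δ : ℝ} (hδ : 0 < δ) {f : X → ℝ} (hf : MemLp f 2 m) :
    eLpNorm (resF m δ f) 2 m ≤ eLpNorm f 2 m :=
  gcd_resF_eLpNorm_le hS hδ hf

theorem gc_resF_le (hS : Std m K N) {δ : ℝ} (hδ : 0 < δ) {f : X → ℝ} {C : ℝ} (hf : MemLp f 2 m)
    (hC : 0 ≤ C) (h : ∀ᵐ x ∂m, f x ≤ C) : ∀ᵐ x ∂m, resF m δ f x ≤ C :=
  gcd_resF_le hS hδ hC hf h

theorem gc_resF_nonneg (hS : Std m K N) {δ : ℝ} (hδ : 0 < δ) {f : X → ℝ} (hf : MemLp f 2 m)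
    (h : ∀ᵐ x ∂m, 0 ≤ f x) : ∀ᵐ x ∂m, 0 ≤ resF m δ f x :=
  gcd_resF_nonneg hS hδ hf h

theorem gc_resF_mono (hS : Std m K N) {δ : ℝ} (hδ : 0 < δ) {f g : X → ℝ} (hf : MemLp f 2 m)
    (hg : MemLp g 2 m) (h : ∀ᵐ x ∂m, f x ≤ g x) : ∀ᵐ x ∂m, resF m δ f x ≤ resF m δ g x :=
  gcd_resF_mono hS hδ hf hg h

theorem gc_resF_aebdd (hS : Std m K N) {δ : ℝ} (hδ : 0 < δ) {f : X → ℝ} {B : ℝ}
    (hf : MemLp f 2 m) (h : AEBdd m f B) : AEBdd m (resF m δ f) B :=
  gcd_resF_aebdd hS hδ hf h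

theorem gc_resF_L1 (hS : Std m K N) {δ : ℝ} (hδ : 0 < δ) {f : X → ℝ} (hf : MemLp f 2 m)
    (h1 : Integrable f m) :
    Integrable (resF m δ f) m ∧ ∫ x, |resF m δ f x| ∂m ≤ ∫ x, |f x| ∂m :=
  gcd_resF_L1 hS hδ hf h1

theorem gc_resF_energy_le (hS : Std m K N) {δ : ℝ} (hδ : 0 < δ) {f : X → ℝ} (hf : Sobolev m f) :
    energy m (resF m δ f) ≤ energy m f :=
  gcd_resF_energy_le hS hδ hf

theorem gc_resF_L2Lim (hS : Std m K N) {f : X → ℝ} (hf : MemLp f 2 m) :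
    gc_L2Lim m (𝓝[>] (0 : ℝ)) (fun δ => resF m δ f) f :=
  gcd_resF_tendsto_L2 hS hf

theorem gc_resF_W12Lim (hS : Std m K N) {f : X → ℝ} (hf : Sobolev m f) :
    gc_W12Lim m (𝓝[>] (0 : ℝ)) (fun δ => resF m δ f) f :=
  ⟨gcd_resF_tendsto_L2 hS hf.1, gcd_resF_tendsto_energy hS hf⟩

/-- HS2 criterion: `sup_δ (1/δ) ∫ (f - resF δ f) f < ∞` ⟹ `f` Sobolev. -/
theorem gc_sob_of_resF_bound (hS : Std m K N) {f : X → ℝ} {C : ℝ} (hf : MemLp f 2 m)
    (h : ∀ᶠ δ in 𝓝[>] (0 : ℝ), (1 / δ) * ∫ x, (f x - resF m δ f x) * f x ∂m ≤ C) :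
    Sobolev m f ∧ energy m f ≤ C :=
  gcd_resF_crit hS hf (h.mono fun δ hδ => by rwa [one_div] at hδ)

theorem gc_resF_quot_le_energy (hS : Std m K N) {δ : ℝ} (hδ : 0 < δ) {f : X → ℝ}
    (hf : Sobolev m f) : (1 / δ) * ∫ x, (f x - resF m δ f x) * f x ∂m ≤ energy m f := by
  rw [one_div]; exact gcd_resF_quot_le hS hδ hf

/-- resolvent and Laplacian commute -/
theorem gc_resF_laplacian_comm (hS : Std m K N) {δ : ℝ} (hδ : 0 < δ) {u L : X → ℝ}
    (hu : IsLaplacian m u L) : IsLaplacian m (resF m δ u) (resF m δ L) :=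
  gcd_resF_lap hS hδ hu

theorem gc_resF_comm (hS : Std m K N) {δ δ' : ℝ} (hδ : 0 < δ) (hδ' : 0 < δ') {f : X → ℝ}
    (hf : MemLp f 2 m) : resF m δ (resF m δ' f) =ᵐ[m] resF m δ' (resF m δ f) :=
  Filter.EventuallyEq.of_eq (gcd_resF_comm hS hδ hδ' hf)

/-! ### D3. the heat flow `heatF m t f = e^{tΔ} f` -/

theorem gc_heatF_coe {t : ℝ} {f : X → ℝ} (hf : MemLp f 2 m) :
    heatF m t f = ((flow (ChL2 m) t (hf.toLp f) : Lp ℝ 2 m) : X → ℝ) :=
  gcd_heatF_eq hf t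

theorem gc_heatF_memLp (t : ℝ) (f : X → ℝ) : MemLp (heatF m t f) 2 m :=
  gcd_heatF_memLp t f

/-- equality of FUNCTIONS -/
theorem gc_heatF_congr {t : ℝ} {f g : X → ℝ} (h : f =ᵐ[m] g) : heatF m t f = heatF m t g :=
  gcd_heatF_congr h t

theorem gc_heatF_zero {f : X → ℝ} (hf : MemLp f 2 m) : heatF m 0 f =ᵐ[m] f :=
  gcd_heatF_of_nonpos le_rfl hf

theorem gc_heatF_semigroup (hS : Std m K N) {s t : ℝ} (hs : 0 ≤ s) (ht : 0 ≤ t) {f : X → ℝ}
    (hf : MemLp f 2 m) : heatF m (s + t) f =ᵐ[m] heatF m s (heatF m t f) :=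
  Filter.EventuallyEq.of_eq (gcd_heatF_add_time hS hs ht hf)

theorem gc_heatF_add (hS : Std m K N) {t : ℝ} (ht : 0 ≤ t) {f g : X → ℝ} (hf : MemLp f 2 m)
    (hg : MemLp g 2 m) :
    heatF m t (fun x => f x + g x) =ᵐ[m] fun x => heatF m t f x + heatF m t g x :=
  gcd_heatF_add hS t hf hg

theorem gc_heatF_sub (hS : Std m K N) {t : ℝ} (ht : 0 ≤ t) {f g : X → ℝ} (hf : MemLp f 2 m)
    (hg : MemLp g 2 m) :
    heatF m t (fun x => f x - g x) =ᵐ[m] fun x => heatF m t f x - heatF m t g x :=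
  gcd_heatF_sub hS t hf hg

theorem gc_heatF_const_mul (hS : Std m K N) {t : ℝ} (ht : 0 ≤ t) (c : ℝ) {f : X → ℝ}
    (hf : MemLp f 2 m) : heatF m t (fun x => c * f x) =ᵐ[m] fun x => c * heatF m t f x :=
  gcd_heatF_smul hS t c hf

theorem gc_heatF_symm (hS : Std m K N) {t : ℝ} (ht : 0 ≤ t) {f g : X → ℝ} (hf : MemLp f 2 m)
    (hg : MemLp g 2 m) : ∫ x, heatF m t f x * g x ∂m = ∫ x, f x * heatF m t g x ∂m :=
  gcd_heatF_symm hS t hf hg

theorem gc_heatF_norm_le (hS : Std m K N) {t : ℝ} (ht : 0 ≤ t) {f : X → ℝ} (hf : MemLp f 2 m) :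
    eLpNorm (heatF m t f) 2 m ≤ eLpNorm f 2 m :=
  gcd_heatF_eLpNorm_le hS t hf

theorem gc_heatF_le (hS : Std m K N) {t : ℝ} (ht : 0 ≤ t) {f : X → ℝ} {C : ℝ} (hf : MemLp f 2 m)
    (hC : 0 ≤ C) (h : ∀ᵐ x ∂m, f x ≤ C) : ∀ᵐ x ∂m, heatF m t f x ≤ C :=
  gcd_heatF_le hS t hC hf h

theorem gc_heatF_nonneg (hS : Std m K N) {t : ℝ} (ht : 0 ≤ t) {f : X → ℝ} (hf : MemLp f 2 m)
    (h : ∀ᵐ x ∂m, 0 ≤ f x) : ∀ᵐ x ∂m, 0 ≤ heatF m t f x :=
  gcd_heatF_nonneg hS t hf h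

theorem gc_heatF_mono (hS : Std m K N) {t : ℝ} (ht : 0 ≤ t) {f g : X → ℝ} (hf : MemLp f 2 m)
    (hg : MemLp g 2 m) (h : ∀ᵐ x ∂m, f x ≤ g x) : ∀ᵐ x ∂m, heatF m t f x ≤ heatF m t g x :=
  gcd_heatF_mono hS t hf hg h

theorem gc_heatF_aebdd (hS : Std m K N) {t : ℝ} (ht : 0 ≤ t) {f : X → ℝ} {B : ℝ}
    (hf : MemLp f 2 m) (h : AEBdd m f B) : AEBdd m (heatF m t f) B :=
  gcd_heatF_aebdd hS t hf h

theorem gc_heatF_L1 (hS : Std m K N) {t : ℝ} (ht : 0 ≤ t) {f : X → ℝ} (hf : MemLp f 2 m)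
    (h1 : Integrable f m) :
    Integrable (heatF m t f) m ∧ ∫ x, |heatF m t f x| ∂m ≤ ∫ x, |f x| ∂m :=
  gcd_heatF_L1 hS t hf h1

theorem gc_heatF_inDomain (hS : Std m K N) {t : ℝ} (ht : 0 < t) {f : X → ℝ} (hf : MemLp f 2 m) :
    InLaplacianDomain m (heatF m t f) :=
  gcd_heatF_inDomain hS ht hf

theorem gc_heatF_sob (hS : Std m K N) {t : ℝ} (ht : 0 < t) (f : X → ℝ) :
    Sobolev m (heatF m t f) := by
  by_cases hf : MemLp f 2 m
  · exact gcd_heatF_sobolev hS ht hf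
  · have : heatF m t f = fun _ => (0 : ℝ) := by
      unfold heatF; rw [dif_neg hf]; rfl
    rw [this]; exact gcd_sobolev_zero hS

/-- `∫ |D H_t f|² ≤ ‖f‖² / t` -/
theorem gc_heatF_energy_le_div (hS : Std m K N) {t : ℝ} (ht : 0 < t) {f : X → ℝ}
    (hf : MemLp f 2 m) : energy m (heatF m t f) ≤ (∫ x, f x ^ 2 ∂m) / t :=
  gcd_heatF_energy_bound hS ht hf

/-- `‖Δ H_t f‖ ≤ ‖f‖ / t` -/
theorem gc_heatF_laplacian_norm_le (hS : Std m K N) {t : ℝ} (ht : 0 < t) {f : X → ℝ}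
    (hf : MemLp f 2 m) :
    ∫ x, (laplacian m (heatF m t f) x) ^ 2 ∂m ≤ (∫ x, f x ^ 2 ∂m) / t ^ 2 :=
  gcd_heatF_lap_sq_le hS ht hf

theorem gc_heatF_energy_le (hS : Std m K N) {t : ℝ} (ht : 0 ≤ t) {f : X → ℝ} (hf : Sobolev m f) :
    energy m (heatF m t f) ≤ energy m f :=
  gcd_heatF_energy_le hS t hf

theorem gc_heatF_energy_antitone (hS : Std m K N) {s t : ℝ} (hs : 0 < s) (hst : s ≤ t)
    {f : X → ℝ} (hf : MemLp f 2 m) : energy m (heatF m t f) ≤ energy m (heatF m s f) :=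
  gcd_heatF_energy_antitone hS hf hs (hs.trans_le hst) hst

/-- strong continuity in `L²` at every time `t ≥ 0` -/
theorem gc_heatF_L2Lim (hS : Std m K N) {t : ℝ} (ht : 0 ≤ t) {f : X → ℝ} (hf : MemLp f 2 m) :
    gc_L2Lim m (𝓝[≥] t) (fun s => heatF m s f) (heatF m t f) :=
  (gcd_heatF_continuous hS hf t).mono_left nhdsWithin_le_nhds

theorem gc_heatF_L2Lim_zero (hS : Std m K N) {f : X → ℝ} (hf : MemLp f 2 m) :
    gc_L2Lim m (𝓝[>] (0 : ℝ)) (fun s => heatF m s f) f :=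
  (gcd_heatF_tendsto_zero hS hf).mono_left nhdsWithin_le_nhds

theorem gc_heatF_L2Lim_two_sided (hS : Std m K N) {t : ℝ} (ht : 0 < t) {f : X → ℝ}
    (hf : MemLp f 2 m) : gc_L2Lim m (𝓝 t) (fun s => heatF m s f) (heatF m t f) :=
  gcd_heatF_continuous hS hf t

theorem gc_heatF_W12Lim_zero (hS : Std m K N) {f : X → ℝ} (hf : Sobolev m f) :
    gc_W12Lim m (𝓝[>] (0 : ℝ)) (fun s => heatF m s f) f :=
  ⟨(gcd_heatF_tendsto_zero hS hf.1).mono_left nhdsWithin_le_nhds, gcd_heatF_tendsto_energy hS hf⟩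

theorem gc_heatF_W12Lim (hS : Std m K N) {t : ℝ} (ht : 0 < t) {f : X → ℝ} (hf : MemLp f 2 m) :
    gc_W12Lim m (𝓝 t) (fun s => heatF m s f) (heatF m t f) := by
  refine ⟨gcd_heatF_continuous hS hf t, ?_⟩
  have hτ : 0 < t / 2 := by positivity
  have h1 : Tendsto (fun s : ℝ => s - t / 2) (𝓝 t) (𝓝 (t / 2)) := by
    have : Tendsto (fun s : ℝ => s - t / 2) (𝓝 t) (𝓝 (t - t / 2)) :=
      (continuous_id.sub continuous_const).tendsto t
    have h2 : t - t / 2 = t / 2 := by ring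
    rwa [h2] at this
  have h2 := (gcd_heatF_continuous hS hf (t / 2)).comp h1
  have h3 := gcd_heatF_tendsto_datum_energy hS hτ (F := fun s : ℝ => heatF m (s - t / 2) f)
    (fun s => gcd_heatF_memLp _ f) (gcd_heatF_memLp (t / 2) f) h2
  refine h3.congr' ?_
  have h4 : ∀ᶠ s : ℝ in 𝓝 t, t / 2 < s := lt_mem_nhds (by linarith)
  filter_upwards [h4] with s hs
  have e1 : heatF m (t / 2) (heatF m (s - t / 2) f) = heatF m s f := by
    rw [← gcd_heatF_add_time hS hτ.le (by linarith) hf]; congr 1; ring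
  have e2 : heatF m (t / 2) (heatF m (t / 2) f) = heatF m t f := by
    rw [← gcd_heatF_add_time hS hτ.le hτ.le hf]; congr 1; ring
  simp only [e1, e2]

theorem gc_heatF_laplacian_comm (hS : Std m K N) {t : ℝ} (ht : 0 ≤ t) {u L : X → ℝ}
    (hu : IsLaplacian m u L) : IsLaplacian m (heatF m t u) (heatF m t L) :=
  gcd_heatF_lap hS t hu

theorem gc_heatF_resF_comm (hS : Std m K N) {t δ : ℝ} (ht : 0 ≤ t) (hδ : 0 < δ) {f : X → ℝ}
    (hf : MemLp f 2 m) : heatF m t (resF m δ f) =ᵐ[m] resF m δ (heatF m t f) :=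
  Filter.EventuallyEq.of_eq (gcd_heatF_resF_comm hS hδ t hf)

/-- difference quotients in `L²` at `t > 0` -/
theorem gc_heatF_deriv_L2 (hS : Std m K N) {t : ℝ} (ht : 0 < t) {f : X → ℝ} (hf : MemLp f 2 m) :
    gc_L2Lim m (𝓝[≠] (0 : ℝ)) (fun h x => (heatF m (t + h) f x - heatF m t f x) / h)
      (laplacian m (heatF m t f)) :=
  gcd_heatF_deriv_L2 hS ht hf

/-- weak form of the heat equation -/
theorem gc_heatF_hasDerivAt (hS : Std m K N) {t : ℝ} (ht : 0 < t) {f g : X → ℝ}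
    (hf : MemLp f 2 m) (hg : MemLp g 2 m) :
    HasDerivAt (fun s => ∫ x, heatF m s f x * g x ∂m)
      (∫ x, laplacian m (heatF m t f) x * g x ∂m) t :=
  gcd_heatF_hasDerivAt_inner hS ht hf hg

theorem gc_heatF_norm_hasDerivAt (hS : Std m K N) {t : ℝ} (ht : 0 < t) {f : X → ℝ}
    (hf : MemLp f 2 m) :
    HasDerivAt (fun s => ∫ x, (heatF m s f x) ^ 2 ∂m) (- 2 * energy m (heatF m t f)) t := by
  have h := (gcd_heatF_norm_deriv hS ht hf).const_mul 2
  have e1 : (fun s => ∫ x, (heatF m s f x) ^ 2 ∂m) =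
      fun y => 2 * ((∫ x, heatF m y f x ^ 2 ∂m) / 2) := by
    funext s; ring
  have e2 : - 2 * energy m (heatF m t f) = 2 * -energy m (heatF m t f) := by ring
  rw [e1, e2]
  exact h

/-- difference quotient at `0` for `u ∈ D(Δ)`: convergence in `L²` -/
theorem gc_heatF_quot_L2Lim (hS : Std m K N) {u L : X → ℝ} (hu : IsLaplacian m u L) :
    gc_L2Lim m (𝓝[>] (0 : ℝ)) (fun t x => (heatF m t u x - u x) / t) L :=
  gcd_heatF_quot_L2 hS hu

/-- difference quotient at `0` for `u ∈ D(Δ)`, `Δu ∈ W^{1,2}`: convergence in `W^{1,2}` -/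
theorem gc_heatF_quot_W12Lim (hS : Std m K N) {u L : X → ℝ} (hu : IsLaplacian m u L)
    (hL : Sobolev m L) :
    gc_W12Lim m (𝓝[>] (0 : ℝ)) (fun t x => (heatF m t u x - u x) / t) L :=
  ⟨gcd_heatF_quot_L2 hS hu, gcd_heatF_quot_energy hS hu hL⟩

/-- `|H_t u - u| ≤ t sup|Δu|` -/
theorem gc_heatF_sub_aebdd (hS : Std m K N) {t : ℝ} (ht : 0 ≤ t) {u L : X → ℝ} {B : ℝ}
    (hu : IsLaplacian m u L) (hB : AEBdd m L B) :
    AEBdd m (fun x => heatF m t u x - u x) (t * B) := by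
  rcases ht.eq_or_lt with rfl | ht
  · filter_upwards [gcd_heatF_of_nonpos (m := m) le_rfl hu.1.1] with x hx
    simp [hx]
  · filter_upwards [gcd_heatF_quot_aebdd hS ht hu hB] with x hx
    rw [abs_div, abs_of_pos ht, div_le_iff₀ ht] at hx
    linarith

/-- Laplace transform (HS4) -/
theorem gc_resF_eq_laplace (hS : Std m K N) {δ : ℝ} (hδ : 0 < δ) {f h : X → ℝ}
    (hf : MemLp f 2 m) (hh : MemLp h 2 m) :
    ∫ x, resF m δ f x * h x ∂m
      = ∫ t in Set.Ioi (0 : ℝ), δ⁻¹ * Real.exp (- t / δ) * ∫ x, heatF m t f x * h x ∂m :=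
  gcd_laplace hS hδ hf hh

/-- continuity of `t ↦ ∫ H_t f · g` on `[0,∞)` -/
theorem gc_heatF_continuousOn (hS : Std m K N) {f g : X → ℝ} (hf : MemLp f 2 m)
    (hg : MemLp g 2 m) :
    ContinuousOn (fun s => ∫ x, heatF m s f x * g x ∂m) (Set.Ici (0 : ℝ)) :=
  (gcd_heatF_continuous_inner hS hf hg).continuousOn

end Claimed.Agent.R210.GC.Lap
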